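import Vale.Agent.P050.R2.H545.HubD1

/-!
# P050: placing all vertices in a given order (the combinatorial part)
-/

namespace Vale.Agent.P050.Books

open Finset

section Ord

variable {V : Type} [DecidableEq V]

theorem bool3 {x y s : Bool} (h1 : x ≠ s) (h2 : y ≠ s) : x = y := by
  cases x <;> cases y <;> cases s <;> simp_all

/-- If states can be extended by twins, leaves and copies, all vertices can be placed in the order
given by `r`. -/
theorem ordered_induct (H K : SimpleGraph V) (side : V → Bool) (σ : Bool) (r : V → ℕ)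
    (A₁ Z : Finset V) (Q J R : V → Finset V) (d : ℕ → ℝ)
    (St : Finset V → Finset V → ℝ → Prop)
    (hA : ∀ a ∈ A₁, side a = σ) (hZ : ∀ z ∈ Z, side z ≠ σ)
    (hs : ∀ u v, H.Adj u v → side u ≠ side v)
    (hr : ∀ u ∈ A₁, ∀ v ∈ A₁, r u = r v → u = v)
    (hQ : ∀ z ∈ Z, Q z ⊆ A₁ ∧ (Q z).Nonempty ∧ Cq K (Q z))
    (hQN : ∀ z ∈ Z, ∀ a ∈ Q z, H.Adj z a)
    (hQl : ∀ z ∈ Z, ∀ a ∈ A₁, H.Adj z a → a ∉ Q z → ∀ b ∈ Q z, r b < r a)
    (hR : ∀ a ∈ A₁, ∀ u, u ∈ R a ↔ u ∈ A₁ ∧ K.Adj a u ∧ r u < r a)
    (hRc : ∀ a ∈ A₁, Cq K (R a))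
    (hJ : ∀ a ∈ A₁, ∀ u, u ∈ J a ↔ u ∈ Z ∧ H.Adj a u ∧ a ∉ Q u)
    (hJi : ∀ a ∈ A₁, (J a).Nonempty → ∃ i ∈ A₁, r i < r a ∧ i ∉ R a ∧
      Cq K (insert i (R a)) ∧ ∀ u ∈ J a, i ∈ Q u ∧ Q u ⊆ insert i (R a))
    (h0 : St ∅ ∅ 0)
    (twin : ∀ (U D : Finset V) (F : ℝ) (v : V), St U D F → side v ≠ σ → v ∉ D →
      (Q v ⊆ U ∧ (Q v).Nonempty ∧ Cq K (Q v)) → (∀ x ∈ U ∪ D, H.Adj v x ↔ x ∈ Q v) →
      St U (insert v D) (F + d (Q v).card))
    (leaf : ∀ (U D R : Finset V) (F : ℝ) (a : V), St U D F → side a = σ → a ∉ U →
      (∀ u ∈ U, K.Adj a u ↔ u ∈ R) → R ⊆ U → Cq K R → (∀ u ∈ D, ¬ H.Adj a u) →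
      St (insert a U) D (F + (d R.card - d (R.card + 1))))
    (copy : ∀ (U D R J : Finset V) (F : ℝ) (a i : V), St U D F → side a = σ → a ∉ U →
      (∀ u ∈ U, K.Adj a u ↔ u ∈ R) → R ⊆ U → Cq K R → i ∈ U → i ∉ R → Cq K (insert i R) →
      (∀ u, u ∈ J ↔ u ∈ D ∧ H.Adj a u) → (∀ u ∈ J, i ∈ Q u ∧ Q u ⊆ insert i R) →
      St (insert a U) D (F + (∑ u ∈ J, (d (Q u).card - d ((Q u).card - 1)) +
        (d R.card - d (R.card + 1))))) :
    St A₁ Z (∑ a ∈ A₁, (∑ u ∈ J a, (d (Q u).card - d ((Q u).card - 1)) +
      (d (R a).card - d ((R a).card + 1))) + ∑ z ∈ Z, d (Q z).card) := by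
  -- the twins
  have twins : ∀ (U D T : Finset V) (F : ℝ), St U D F → Disjoint D T →
      (∀ v ∈ D, side v ≠ σ) → (∀ v ∈ T, side v ≠ σ ∧ Q v ⊆ U ∧ (Q v).Nonempty ∧ Cq K (Q v) ∧
        ∀ x ∈ U, H.Adj v x ↔ x ∈ Q v) → (∀ x ∈ U, side x = σ) →
      St U (D ∪ T) (F + ∑ v ∈ T, d (Q v).card) := by
    intro U D T F hSt
    induction T using Finset.induction_on with
    | empty => intro _ _ _ _; simpa using hSt
    | insert v T hv ih =>
      intro hdis hD hT hU
      rw [Finset.disjoint_insert_right] at hdis
      have h1 := ih hdis.2 hD (fun w hw => hT w (mem_insert_of_mem hw)) hU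
      obtain ⟨t1, t2, t3, t4, t5⟩ := hT v (mem_insert_self _ _)
      have h2 := twin U (D ∪ T) _ v h1 t1 (by
        rw [mem_union, not_or]
        exact ⟨hdis.1, hv⟩) ⟨t2, t3, t4⟩ (fun x hx => by
          rcases mem_union.1 hx with hx | hx
          · exact t5 x hx
          · have hxs : side x ≠ σ := by
              rcases mem_union.1 hx with hx | hx
              · exact hD x hx
              · exact (hT x (mem_insert_of_mem hx)).1
            constructor
            · intro hadj
              exact absurd (bool3 t1 hxs) (hs v x hadj)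
            · intro hxQ
              exact absurd (hU x (t2 hxQ)) hxs)
      rw [Finset.union_insert, Finset.sum_insert hv]
      have e : F + (d (Q v).card + ∑ v ∈ T, d (Q v).card) =
          F + ∑ v ∈ T, d (Q v).card + d (Q v).card := by ring
      rw [e]
      exact h2
  -- the induction
  have key : ∀ n : ℕ, St (A₁.filter fun a => r a < n)
      (Z.filter fun z => Q z ⊆ A₁.filter fun a => r a < n)
      (∑ a ∈ A₁.filter (fun a => r a < n), (∑ u ∈ J a, (d (Q u).card - d ((Q u).card - 1)) +
        (d (R a).card - d ((R a).card + 1))) +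
          ∑ z ∈ Z.filter (fun z => Q z ⊆ A₁.filter fun a => r a < n), d (Q z).card) := by
    intro n
    induction n with
    | zero =>
      have e1 : (A₁.filter fun a => r a < 0) = ∅ := by simp
      have e2 : (Z.filter fun z => Q z ⊆ (∅ : Finset V)) = ∅ := by
        refine Finset.filter_eq_empty_iff.2 fun z hz h1 => ?_
        have := (hQ z hz).2.1
        rw [Finset.subset_empty.1 h1] at this
        exact Finset.not_nonempty_empty this
      rw [e1, e2, Finset.sum_empty, Finset.sum_empty, add_zero]
      exact h0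
    | succ n ih =>
      by_cases ha : ∃ a ∈ A₁, r a = n
      · obtain ⟨a, haA, han⟩ := ha
        let U := A₁.filter fun a => r a < n
        let D := Z.filter fun z => Q z ⊆ U
        have haU : a ∉ U := fun hm => by
          have := (mem_filter.1 hm).2
          omega
        have eU : (A₁.filter fun a => r a < n + 1) = insert a U := by
          ext x
          simp only [U, mem_filter, mem_insert]
          constructor
          · rintro ⟨h1, h2⟩
            by_cases h3 : r x = n
            · left
              exact hr x h1 a haA (h3.trans han.symm)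
            · right
              exact ⟨h1, by omega⟩
          · rintro (rfl | ⟨h1, h2⟩)
            · exact ⟨haA, by omega⟩
            · exact ⟨h1, by omega⟩
        have hUs : ∀ x ∈ insert a U, side x = σ := by
          intro x hx
          rcases mem_insert.1 hx with rfl | hx
          · exact hA _ haA
          · exact hA x (mem_filter.1 hx).1
        have hDs : ∀ z ∈ D, side z ≠ σ := fun z hz => hZ z (mem_filter.1 hz).1
        have hRU : R a ⊆ U := by
          intro u hu
          obtain ⟨h1, _, h3⟩ := (hR a haA u).1 hu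
          exact mem_filter.2 ⟨h1, by omega⟩
        have hKR : ∀ u ∈ U, K.Adj a u ↔ u ∈ R a := by
          intro u hu
          obtain ⟨h1, h2⟩ := mem_filter.1 hu
          rw [hR a haA]
          exact ⟨fun h3 => ⟨h1, h3, by omega⟩, fun h3 => h3.2.1⟩
        have hJD : ∀ u, u ∈ J a ↔ u ∈ D ∧ H.Adj a u := by
          intro u
          rw [hJ a haA]
          constructor
          · rintro ⟨h1, h2, h3⟩
            refine ⟨mem_filter.2 ⟨h1, fun b hb => mem_filter.2 ⟨(hQ u h1).1 hb, ?_⟩⟩, h2⟩
            have := hQl u h1 a haA h2.symm h3 b hb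
            omega
          · rintro ⟨h1, h2⟩
            obtain ⟨h3, h4⟩ := mem_filter.1 h1
            exact ⟨h3, h2, fun h5 => haU (h4 h5)⟩
        -- the vertex `a`
        have step1 : St (insert a U) D (∑ a ∈ U,
            (∑ u ∈ J a, (d (Q u).card - d ((Q u).card - 1)) +
              (d (R a).card - d ((R a).card + 1))) + ∑ z ∈ D, d (Q z).card +
            (∑ u ∈ J a, (d (Q u).card - d ((Q u).card - 1)) +
              (d (R a).card - d ((R a).card + 1)))) := by
          rcases Finset.eq_empty_or_nonempty (J a) with hJa | hJa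
          · have h1 := leaf U D (R a) _ a ih (hA a haA) haU hKR hRU (hRc a haA)
              (fun u hu hadj => by
                have := (hJD u).2 ⟨hu, hadj⟩
                rw [hJa] at this
                exact absurd this (Finset.notMem_empty u))
            rw [hJa, Finset.sum_empty, zero_add]
            exact h1
          · obtain ⟨i, hi, hri, hiR, hic, hiQ⟩ := hJi a haA hJa
            exact copy U D (R a) (J a) _ a i ih (hA a haA) haU hKR hRU (hRc a haA)
              (mem_filter.2 ⟨hi, by omega⟩) hiR hic hJD hiQ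
        -- the twins
        have eD : (Z.filter fun z => Q z ⊆ insert a U) =
            D ∪ (Z.filter fun z => Q z ⊆ insert a U ∧ a ∈ Q z) := by
          ext z
          simp only [D, mem_filter, mem_union]
          constructor
          · rintro ⟨h1, h2⟩
            by_cases h3 : a ∈ Q z
            · right
              exact ⟨h1, h2, h3⟩
            · left
              exact ⟨h1, fun x hx => (mem_insert.1 (h2 hx)).resolve_left
                (fun e => h3 (e ▸ hx))⟩
          · rintro (⟨h1, h2⟩ | ⟨h1, h2, h3⟩)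
            · exact ⟨h1, h2.trans (Finset.subset_insert _ _)⟩
            · exact ⟨h1, h2⟩
        have hdis : Disjoint D (Z.filter fun z => Q z ⊆ insert a U ∧ a ∈ Q z) := by
          rw [Finset.disjoint_left]
          intro z h1 h2
          exact haU ((mem_filter.1 h1).2 (mem_filter.1 h2).2.2)
        have step2 := twins (insert a U) D (Z.filter fun z => Q z ⊆ insert a U ∧ a ∈ Q z) _
          step1 hdis hDs (fun v hv => by
            obtain ⟨h1, h2, h3⟩ := mem_filter.1 hv
            refine ⟨hZ v h1, h2, (hQ v h1).2.1, (hQ v h1).2.2, fun x hx => ?_⟩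
            constructor
            · intro hadj
              by_contra hxQ
              have hxA : x ∈ A₁ := by
                rcases mem_insert.1 hx with rfl | hx
                · exact haA
                · exact (mem_filter.1 hx).1
              have h4 := hQl v h1 x hxA hadj hxQ a h3
              rcases mem_insert.1 hx with rfl | hx
              · exact lt_irrefl _ h4
              · have := (mem_filter.1 hx).2
                omega
            · exact fun hxQ => hQN v h1 x hxQ) hUs
        rw [eU, eD, Finset.sum_insert haU, Finset.sum_union hdis]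
        refine (congrArg _ ?_).mp step2
        ring
      · have e1 : (A₁.filter fun a => r a < n + 1) = A₁.filter fun a => r a < n := by
          refine Finset.filter_congr fun x hx => ?_
          have h3 : r x ≠ n := fun h3 => ha ⟨x, hx, h3⟩
          omega
        rw [e1]
        exact ih
  -- the end
  have hU : (A₁.filter fun a => r a < A₁.sup r + 1) = A₁ :=
    Finset.filter_true_of_mem fun a ha => Nat.lt_succ_of_le (Finset.le_sup ha)
  have h1 := key (A₁.sup r + 1)
  rw [hU] at h1
  have hD : (Z.filter fun z => Q z ⊆ A₁) = Z :=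
    Finset.filter_true_of_mem fun z hz => (hQ z hz).1
  rw [hD] at h1
  exact h1

end Ord

end Vale.Agent.P050.Books
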