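import Vale.Agent.P050.R2.H545.HubE2b
import Vale.Agent.P050.R4.H987.Ord1

/-!
# P050: the law of the ordered theorem
-/

set_option linter.unusedSectionVars false

namespace Vale.Agent.P050.Books

open Finset Vale.Agent.P050.Lev Vale.Agent.P050.Ears

section Ord2

variable {V S : Type} [Fintype V] [DecidableEq V] [Fintype S]
  {side : V → Bool} {A : Matrix S S ℝ} {μ : S → ℝ} {c : S → Bool}

/-- all vertices of `A₁` and `Z` are placed in the order given by `r` -/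
theorem ordered_law (h : Rev A μ c) {H K : SimpleGraph V} {σ : Bool}
    (hs : ∀ u v, H.Adj u v → side u ≠ side v) {r : V → ℕ} {A₁ Z : Finset V}
    {Q J R : V → Finset V} {d : ℕ → ℝ}
    (hd : ∀ P : Finset V, (∀ x ∈ P, side x = σ) → Books.dd side A μ c P = d P.card)
    (hd0 : d 0 = 0) (hA : ∀ a ∈ A₁, side a = σ) (hZ : ∀ z ∈ Z, side z ≠ σ)
    (hr : ∀ u ∈ A₁, ∀ v ∈ A₁, r u = r v → u = v)
    (hQ : ∀ z ∈ Z, Q z ⊆ A₁ ∧ (Q z).Nonempty ∧ Cq K (Q z))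
    (hQN : ∀ z ∈ Z, ∀ a ∈ Q z, H.Adj z a)
    (hQl : ∀ z ∈ Z, ∀ a ∈ A₁, H.Adj z a → a ∉ Q z → ∀ b ∈ Q z, r b < r a)
    (hR : ∀ a ∈ A₁, ∀ u, u ∈ R a ↔ u ∈ A₁ ∧ K.Adj a u ∧ r u < r a)
    (hRc : ∀ a ∈ A₁, Cq K (R a))
    (hJ : ∀ a ∈ A₁, ∀ u, u ∈ J a ↔ u ∈ Z ∧ H.Adj a u ∧ a ∉ Q u)
    (hJi : ∀ a ∈ A₁, (J a).Nonempty → ∃ i ∈ A₁, r i < r a ∧ i ∉ R a ∧
      Cq K (insert i (R a)) ∧ ∀ u ∈ J a, i ∈ Q u ∧ Q u ⊆ insert i (R a)) :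
    ∃ ρ L : (V → S) → ℝ, OLaw H side A μ c σ K Q A₁ Z ρ L
      (∑ a ∈ A₁, (∑ u ∈ J a, (d (Q u).card - d ((Q u).card - 1)) +
        (d (R a).card - d ((R a).card + 1))) + ∑ z ∈ Z, d (Q z).card) := by
  refine ordered_induct H K side σ r A₁ Z Q J R d
    (fun U D F => ∃ ρ L : (V → S) → ℝ, OLaw H side A μ c σ K Q U D ρ L F)
    hA hZ hs hr hQ hQN hQl hR hRc hJ hJi ⟨_, _, OLaw.empty h hs⟩ ?_ ?_ ?_
  · rintro U D F v ⟨ρ, L, hl⟩ hv hvD hq hN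
    exact OLaw.twin h hs hd hl hv hvD hq hN
  · rintro U D R F a ⟨ρ, L, hl⟩ ha haU hR hRU hRc hN
    exact OLaw.leaf h hs hd hl ha haU hR hRU hRc hN
  · rintro U D R J F a i ⟨ρ, L, hl⟩ ha haU hR hRU _ hi hiR hiRc hJ hJQ
    exact OLaw.copy h hs hd hd0 hl ha haU hR hRU hi hiR hiRc hJ hJQ

end Ord2

end Vale.Agent.P050.Books
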