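import Vale.Agent.P050.R4.H153.MfOk
import Vale.Agent.P050.R4.H153.FrReal
import Vale.Agent.P050.R4.H859.Iso

/-!
# P050, mirrored frames: the parts are attached
-/

namespace Vale.Agent.P050.SP

open Finset Matrix Vale.Agent.P050.Ears Vale.Agent.P050.Lev

section

variable {S : Type} [Fintype S] [DecidableEq S] {A : Matrix S S ℝ} {μ : S → ℝ} {c : S → Bool}
variable {V : Type} [Fintype V] [DecidableEq V] {H : SimpleGraph V} {e : SP} {a b : V}
variable {side : V → Bool}

/-- A law of the maps of the graph `H` together with the parts in the list `M`, with nonnegative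
entropy balance. -/
structure LawU (H : SimpleGraph V) (M : Multiset (V × SP × V)) (side : V → Bool)
    (A : Matrix S S ℝ) (μ : S → ℝ) (c : S → Bool) (P : (V → S) → ℝ) : Prop where
  nonneg : ∀ z, 0 ≤ P z
  sum : ∑ z, P z = 1
  supp : ∀ z, 0 < P z → 0 < wt H side A μ c z * partE A μ M z
  ent : 0 ≤ ∑ z, P z * (Real.log (wt H side A μ c z * partE A μ M z) - Real.log (P z))

theorem LawU.lawOn {P : (V → S) → ℝ} (hP : LawU H 0 side A μ c P) : LawOn H side A μ c P := by
  have h1 : ∀ z : V → S, wt H side A μ c z * partE A μ 0 z = wt H side A μ c z := fun z => by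
    rw [partE_zero, mul_one]
  refine ⟨hP.nonneg, hP.sum, fun z hz => ?_, ?_⟩
  · have := hP.supp z hz
    rwa [h1] at this
  · have := hP.ent
    simp only [h1] at this
    exact this

theorem LawW.lawU {M : Multiset (V × SP × V)} {P : (V → S) → ℝ}
    (hP : LawW (fun z => kapE A μ 0 z * partE A μ M z) side μ c P) :
    LawU ⊥ M side A μ c P := by
  have h1 : ∀ z : V → S, wt (⊥ : SimpleGraph V) side A μ c z * partE A μ M z =
      mus side μ c z * (kapE A μ 0 z * partE A μ M z) := fun z => by
    rw [wt_bot, kapE_zero, one_mul]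
  refine ⟨hP.nonneg, hP.sum, fun z hz => ?_, ?_⟩
  · rw [h1]
    exact hP.supp z hz
  · simp only [h1]
    exact hP.ent

/-- Attaching a part: its kernel is replaced by the part. -/
theorem LawU.att (h : Rev A μ c) (hs : simple e) (hb : bip e) (hab : a ≠ b)
    (hd : ¬ (direct e ∧ H.Adj a b)) (hside : side b = xor (side a) (decide (len e % 2 = 1)))
    {M : Multiset (V × SP × V)} {P : (V → S) → ℝ}
    (hP : LawU H ((a, e, b) ::ₘ M) side A μ c P) :
    LawU (SP.att H e a b) (M.map (pmap .inl)) (attSide side e a) A μ c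
      (attP A μ e a b P) := by
  have pos : ∀ z, 0 < P z → wt H side A μ c z ≠ 0 ∧ K A μ e (z a) (z b) ≠ 0 ∧
      partE A μ M z ≠ 0 := by
    intro z hz
    have h1 := hP.supp z hz
    rw [partE_cons] at h1
    refine ⟨fun h0 => ?_, fun h0 => ?_, fun h0 => ?_⟩ <;>
      · rw [h0] at h1; simp at h1
  have pK' : ∀ z, P z ≠ 0 → K A μ e (z a) (z b) ≠ 0 := fun z hz =>
    (pos z (lt_of_le_of_ne (hP.nonneg z) hz.symm)).2.1
  have split : ∀ z : V ⊕ Inn e → S, wt (SP.att H e a b) (attSide side e a) A μ c z *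
      partE A μ (M.map (pmap (Sum.inl : V → V ⊕ Inn e))) z =
      wt H side A μ c (fun v => z (.inl v)) * partE A μ M (fun v => z (.inl v)) *
        inW A μ e (z (.inl a)) (z (.inl b)) (fun i => z (.inr i)) := by
    intro z
    have e1 : wt (SP.att H e a b) (attSide side e a) A μ c z =
        wt H side A μ c (fun v => z (.inl v)) *
          inW A μ e (z (.inl a)) (z (.inl b)) (fun i => z (.inr i)) :=
      wt_att h hs hb hab hd hside z
    rw [e1, partE_map]
    ring
  refine ⟨fun z => ?_, ?_, fun z hz => ?_, ?_⟩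
  · exact mul_nonneg (hP.nonneg _) (div_nonneg (inW_nonneg h _ _ _ _) (K_nonneg h e _ _))
  · have h1 := attP_marg (A := A) (μ := μ) (e := e) (a := a) (b := b) pK' (fun _ => 1)
    simp only [mul_one] at h1
    rw [h1, hP.sum]
  · obtain ⟨h1, h2, _⟩ := attP_pos h hP.nonneg hz
    obtain ⟨n1, _, n3⟩ := pos _ h1
    rw [split]
    exact mul_pos (mul_pos (lt_of_le_of_ne (wt_nonneg h _) n1.symm)
      (lt_of_le_of_ne (partE_nonneg h _ _) n3.symm)) h2
  · have h1 := attP_marg (A := A) (μ := μ) (e := e) (a := a) (b := b) pK' (fun z =>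
      Real.log (wt H side A μ c z * partE A μ ((a, e, b) ::ₘ M) z) - Real.log (P z))
    have h2 : ∑ z : V ⊕ Inn e → S, attP A μ e a b P z *
        (Real.log (wt (SP.att H e a b) (attSide side e a) A μ c z *
          partE A μ (M.map (pmap (Sum.inl : V → V ⊕ Inn e))) z) -
          Real.log (attP A μ e a b P z)) =
        ∑ z : V ⊕ Inn e → S, attP A μ e a b P z *
          (Real.log (wt H side A μ c (fun v => z (.inl v)) *
            partE A μ ((a, e, b) ::ₘ M) (fun v => z (.inl v))) -
              Real.log (P (fun v => z (.inl v)))) := by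
      refine Finset.sum_congr rfl fun z _ => ?_
      have hn : 0 ≤ attP A μ e a b P z :=
        mul_nonneg (hP.nonneg _) (div_nonneg (inW_nonneg h _ _ _ _) (K_nonneg h e _ _))
      rcases hn.eq_or_lt with h0 | h0
      · rw [← h0, zero_mul, zero_mul]
      · obtain ⟨p1, p2, p3⟩ := attP_pos h hP.nonneg h0
        obtain ⟨n1, n2, n3⟩ := pos _ p1
        congr 1
        rw [split, partE_cons, Real.log_mul (mul_ne_zero n1 n3) p2.ne', Real.log_mul n1 n3,
          Real.log_mul n1 (mul_ne_zero n2 n3), Real.log_mul n2 n3]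
        unfold attP
        rw [Real.log_mul p1.ne' (div_pos p2 p3).ne', Real.log_div p2.ne' p3.ne']
        ring
    rw [h2, h1]
    exact hP.ent

end

/-- the inductive statement -/
structure UOK {V : Type} (H : SimpleGraph V) (M : Multiset (V × SP × V)) (iF : Fintype V)
    (iD : DecidableEq V) (side : V → Bool) : Prop where
  proper : ∀ u v, H.Adj u v → side u ≠ side v
  prt : ∀ q ∈ M, side q.2.2 = sh (side q.1) (len q.2.1) ∧ bip q.2.1
  law : ∀ (S : Type) [Fintype S] [DecidableEq S] (A : Matrix S S ℝ) (μ : S → ℝ) (c : S → Bool),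
    Rev A μ c → ∃ P : (V → S) → ℝ, LawU H M side A μ c P

theorem MOK.uok {V : Type} {M : Multiset (V × SP × V)}
    {R : Set (Set V × Multiset (V × ℕ × V))} {B : Set (Blk V)} {iF : Fintype V}
    {iD : DecidableEq V} {side : V → Bool} (hT : MOK 0 M R B iF iD side) :
    UOK (⊥ : SimpleGraph V) M iF iD side :=
  ⟨fun u v h => absurd h (by simp), hT.prt, fun S _ _ A μ c h => by
    obtain ⟨P, hP, _⟩ := hT.law S A μ c h
    exact ⟨P, hP.lawU⟩⟩

/-- a part is attached -/
theorem UOK.att {V : Type} {H : SimpleGraph V} {M : Multiset (V × SP × V)}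
    {iF : Fintype V} {iD : DecidableEq V} {side : V → Bool} {e : SP} {a b : V}
    (hT : UOK H ((a, e, b) ::ₘ M) iF iD side) (hab : a ≠ b) (hs : simple e)
    (hd : ¬ (direct e ∧ H.Adj a b)) :
    UOK (SP.att H e a b) (M.map (pmap .inl)) inferInstance inferInstance
      (attSide side e a) := by
  obtain ⟨hside, hb⟩ := hT.prt (a, e, b) (Multiset.mem_cons_self _ _)
  have hside : side b = xor (side a) (decide (len e % 2 = 1)) := hside
  refine ⟨fun u v => att_proper hT.proper hb hside u v, fun q hq => ?_,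
    fun S _ _ A μ c h => ?_⟩
  · obtain ⟨p, hp, rfl⟩ := Multiset.mem_map.1 hq
    exact hT.prt p (Multiset.mem_cons_of_mem hp)
  · obtain ⟨P, hP⟩ := hT.law S A μ c h
    exact ⟨_, hP.att h hs hb hab hd hside⟩

theorem MFrG.uok {C : SP → ℕ → Prop} {K : SP → Prop}
    (hok : ∀ {V : Type} {L : Multiset (V × ℕ × V)} {M : Multiset (V × SP × V)}
      {R : Set (Set V × Multiset (V × ℕ × V))} {B : Set (Blk V)}, MFrame C K L M R B →
        ∃ (iF : Fintype V) (iD : DecidableEq V) (side : V → Bool), MOK L M R B iF iD side)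
    {V : Type} {H : SimpleGraph V} {M : Multiset (V × SP × V)} (hG : MFrG C K H M) :
    ∃ (iF : Fintype V) (iD : DecidableEq V) (side : V → Bool), UOK H M iF iD side := by
  induction hG with
  | frame hF =>
    obtain ⟨iF, iD, side, hT⟩ := hok hF
    exact ⟨iF, iD, side, hT.uok⟩
  | att _ hab hs hd ih =>
    obtain ⟨iF, iD, side, hT⟩ := ih
    exact ⟨inferInstance, inferInstance, _, hT.att hab hs hd⟩

/-- The theorem on graphs made from mirrored frames, up to the induction over the frame. -/
theorem MFrG.gsid_of {C : SP → ℕ → Prop} {K : SP → Prop}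
    (hok : ∀ {V : Type} {L : Multiset (V × ℕ × V)} {M : Multiset (V × SP × V)}
      {R : Set (Set V × Multiset (V × ℕ × V))} {B : Set (Blk V)}, MFrame C K L M R B →
        ∃ (iF : Fintype V) (iD : DecidableEq V) (side : V → Bool), MOK L M R B iF iD side)
    {V W : Type} [Fintype V] [DecidableEq V] {H : SimpleGraph V} {G : SimpleGraph W}
    (hG : MFrG C K G 0) (φ : H ≃g G) : ∃ side : V → Bool, GSid H side := by
  classical
  obtain ⟨iF, iD, side, hT⟩ := hG.uok hok
  refine ⟨fun v => side (φ v), gsid_of_rev_iso H _ (fun u v huv => hT.proper _ _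
    (φ.map_adj_iff.2 huv)) ?_⟩
  intro S _ _ _ A μ c hR
  obtain ⟨P, hP⟩ := hT.law S A μ c hR
  have h1 := hP.lawOn.one_le hR
  have h4 := sum_iso (A := A) (μ := μ) (c := c) φ side (fun _ => 1)
  simp only [mul_one] at h4
  have h5 : ∑ z, wt H (fun v => side (φ v)) A μ c z = ∑ z, wt G side A μ c z := h4.symm
  rw [h5]
  exact h1

end Vale.Agent.P050.SP
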