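import Vale.Agent.P050.R4.H987.Star2

/-!
# P050, series-parallel graphs: a path across the bend of a polygon, the theorem
-/

namespace Vale.Agent.P050.SP

open Finset Matrix Vale.Agent.P050.Ears

variable {S : Type*} [Fintype S] [DecidableEq S]
variable {A : Matrix S S ℝ} {μ : S → ℝ} {c : S → Bool} (h : Rev A μ c)

include h

/-- the mutual information increases when the second point moves towards the common end -/
theorem Psi_mono {i α j s β : ℕ} (_ : i + α = j + s + β) (t : Bool) :
    Psi A μ c i α j (β + s) t ≤ Psi A μ c i α (j + s) β t := by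
  have hR := RR_nonneg h (A := A)
  refine Finset.sum_le_sum fun u _ => mul_le_mul_of_nonneg_left ?_ ?_
  · refine Finset.sum_le_sum fun x _ => ?_
    have key : ∀ y, (A ^ i) u x * (A ^ j) u y * (RR A α (β + s) (i + α) u x y *
        Real.log (RR A α (β + s) (i + α) u x y)) ≤
        ∑ r, (A ^ i) u x * (A ^ j) u y * ((A ^ s) y r * (RR A α β (i + α) u x r *
          Real.log (RR A α β (i + α) u x r))) := by
      intro y
      rw [← Finset.mul_sum]
      refine mul_le_mul_of_nonneg_left ?_ (mul_nonneg (h.pow_nonneg _ _ _) (h.pow_nonneg _ _ _))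
      have g := gibbs (univ : Finset S) (fun r => (A ^ s) y r * RR A α β (i + α) u x r)
        (fun r => (A ^ s) y r) (fun r _ => mul_nonneg (h.pow_nonneg _ _ _) (hR _ _ _ _ _ _))
        (fun r _ => h.pow_nonneg _ _ _)
        (fun r _ hp => by
          refine lt_of_le_of_ne (h.pow_nonneg _ _ _) fun h0 => ?_
          rw [← h0, zero_mul] at hp
          exact lt_irrefl _ hp)
      rw [← RR_step, h.pow_row, Real.log_one] at g
      have e1 : ∑ r, (A ^ s) y r * RR A α β (i + α) u x r * (Real.log ((A ^ s) y r) -
          Real.log ((A ^ s) y r * RR A α β (i + α) u x r)) =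
          -∑ r, (A ^ s) y r * (RR A α β (i + α) u x r * Real.log (RR A α β (i + α) u x r)) := by
        rw [← Finset.sum_neg_distrib]
        refine Finset.sum_congr rfl fun r _ => ?_
        by_cases h3 : (A ^ s) y r = 0
        · rw [h3]; simp
        by_cases h4 : RR A α β (i + α) u x r = 0
        · rw [h4]; simp
        rw [Real.log_mul h3 h4]
        ring
      rw [e1] at g
      linarith
    refine (Finset.sum_le_sum fun y _ => key y).trans (le_of_eq ?_)
    rw [Finset.sum_comm]
    refine Finset.sum_congr rfl fun r _ => ?_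
    rw [pow_add, Matrix.mul_apply, Finset.mul_sum, Finset.sum_mul]
    exact Finset.sum_congr rfl fun y _ => by ring
  · split_ifs
    · exact (h.pos u).le
    · exact le_rfl

omit h in
theorem Psi_symm {i α j β : ℕ} (e : i + α = j + β) (t : Bool) :
    Psi A μ c i α j β t = Psi A μ c j β i α t := by
  unfold Psi
  refine Finset.sum_congr rfl fun u _ => ?_
  congr 1
  rw [Finset.sum_comm]
  refine Finset.sum_congr rfl fun y _ => Finset.sum_congr rfl fun x _ => ?_
  have e1 : RR A α β (i + α) u x y = RR A β α (j + β) u y x := by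
    unfold RR
    rw [e]
    exact Finset.sum_congr rfl fun z _ => by ring
  rw [e1]
  ring

/-- the first point is at distance `b` from the end, the second one at distance at least `b` from
the start -/
theorem Psi_swap {l1 b δ : ℕ} (e : δ ≤ l1) (t : Bool) :
    Psi A μ c b l1 (l1 - δ) (b + δ) t ≤ Psi A μ c l1 b (b + δ) (l1 - δ) t := by
  have h1 := Psi_mono h (A := A) (μ := μ) (c := c) (i := b) (α := l1) (j := l1 - δ) (s := δ)
    (β := b) (by omega) t
  have h2 := Psi_mono h (A := A) (μ := μ) (c := c) (i := l1) (α := b) (j := b) (s := δ)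
    (β := l1 - δ) (by omega) t
  rw [Nat.sub_add_cancel e] at h1 h2
  have h3 := Psi_symm (A := A) (μ := μ) (c := c) (i := b) (α := l1) (j := l1) (β := b)
    (by omega) t
  rw [h3] at h1
  exact h1.trans h2

/-- **A path across the bend of a polygon.** `u` is a corner, the polygon has perimeter
`2 (l1 + b)`, its side across the bend has length `a + b`. -/
theorem wide_kap {l1 d a b m : ℕ} (hT : l1 + b = d + a) (hev : (l1 + b) % 2 = 0)
    (hm1 : a + b ≤ m) (hm2 : m ≤ l1 + d) (hm3 : m % 2 = (a + b) % 2) (t : Bool) :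
    J A μ c (l1 + b) t ≤ ∑ u, (if c u = t then μ u else 0) *
      EL (lam A b a (fun w => (A ^ l1) u w) (fun v => (A ^ d) u v)) (kap A μ m) := by
  obtain ⟨s, hs⟩ : ∃ s, m = a + b + 2 * s := ⟨(m - (a + b)) / 2, by omega⟩
  obtain ⟨δ, hδ⟩ : ∃ δ, d = b + δ + s := ⟨d - b - s, by omega⟩
  have hl : l1 = a + s + δ := by omega
  have ht : sh t (l1 + b) = t := by
    unfold sh
    have : ¬ (l1 + b) % 2 = 1 := by omega
    simp [this]
  have hmk : m = b + (a + s) + s := by omega
  -- seen from the other end
  have b1 := EL_bridge (A := A) (μ := μ) (c := c) h hT t (kap A μ m)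
  have hT2 : l1 + b = (b + δ) + (a + s) := by omega
  have b2 := EL_bridge (A := A) (μ := μ) (c := c) h hT2 t (kap A μ (b + (a + s)))
  rw [ht] at b1 b2
  have hit : ∀ (u : S) (f : ℝ), (if c u = t then μ u else 0) * f =
      if c u = t then μ u * f else 0 := by
    intro u f
    split_ifs <;> simp
  simp only [hit]
  rw [b1]
  -- the extension step
  have s1 : ∑ z, (if c z = t then μ z * (EL (lam A l1 (b + δ) (fun w => (A ^ b) z w)
      (fun v => (A ^ (a + s)) z v)) (kap A μ (b + (a + s))) -
      (∑ x, ∑ y, (A ^ b) z x * (A ^ (a + s)) z y *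
        (RR A l1 (b + δ) (b + l1) z x y * Real.log (RR A l1 (b + δ) (b + l1) z x y)))) else 0) ≤
      ∑ z, if c z = t then μ z * EL (lam A l1 d (fun w => (A ^ b) z w)
        (fun v => (A ^ a) z v)) (kap A μ m) else 0 := by
    refine Finset.sum_le_sum fun z _ => ?_
    split_ifs
    · refine mul_le_mul_of_nonneg_left ?_ (h.pos z).le
      have e1 := ext_pt h (A := A) (μ := μ) (c := c) (b := b) (a := a) (s := s) (l1 := l1)
        (e := b + δ) (k := b + (a + s)) rfl z
      rw [← hδ, ← hmk] at e1
      have e2 := info_nonneg h (A := A) (μ := μ) (c := c) (b := l1) (a := d) (l1 := b) (d := a)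
        (by omega) z
      linarith
    · exact le_rfl
  refine le_trans ?_ s1
  have s2 : ∑ z, (if c z = t then μ z * (EL (lam A l1 (b + δ) (fun w => (A ^ b) z w)
      (fun v => (A ^ (a + s)) z v)) (kap A μ (b + (a + s))) -
      (∑ x, ∑ y, (A ^ b) z x * (A ^ (a + s)) z y *
        (RR A l1 (b + δ) (b + l1) z x y * Real.log (RR A l1 (b + δ) (b + l1) z x y)))) else 0) =
      (∑ z, if c z = t then μ z * EL (lam A l1 (b + δ) (fun w => (A ^ b) z w)
        (fun v => (A ^ (a + s)) z v)) (kap A μ (b + (a + s))) else 0) -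
      Psi A μ c b l1 (a + s) (b + δ) t := by
    unfold Psi
    rw [← Finset.sum_sub_distrib]
    refine Finset.sum_congr rfl fun z _ => ?_
    split_ifs
    · ring
    · ring
  rw [s2, ← b2]
  -- seen from the start
  have s3 : Psi A μ c l1 b (b + δ) (a + s) t + J A μ c (l1 + b) t ≤
      ∑ u, if c u = t then μ u * EL (lam A b (a + s) (fun w => (A ^ l1) u w)
        (fun v => (A ^ (b + δ)) u v)) (kap A μ (b + (a + s))) else 0 := by
    rw [J_eq h]
    unfold Psi
    rw [← Finset.sum_add_distrib]
    refine Finset.sum_le_sum fun u _ => ?_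
    have q1 := QK_kap h (cmp_walk (A := A) (μ := μ) (c := c) h hT2 u)
    rw [QB_walk h hT2 u] at q1
    split_ifs
    · have := mul_le_mul_of_nonneg_left q1 (h.pos u).le
      linarith
    · simp
  have s4 := Psi_swap h (A := A) (μ := μ) (c := c) (l1 := l1) (b := b) (δ := δ) (by omega) t
  rw [show l1 - δ = a + s by omega] at s4
  linarith

end Vale.Agent.P050.SP
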