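import Vale.Agent.P050.R2.H545.HubC1

/-!
# P050: the law of independent neighbours of a hub and its relative entropies
-/

set_option linter.unusedSectionVars false

namespace Vale.Agent.P050.Books

open Finset Vale.Agent.P050.Lev Vale.Agent.P050.Ears

section DUniv

variable {V S : Type} [Fintype V] [DecidableEq V] [Fintype S]
  {side : V → Bool} {A : Matrix S S ℝ} {μ : S → ℝ} {c : S → Bool}

/-- one of the neighbours of the hub is integrated out -/
theorem hQ_intU (h : Rev A μ c) {Q : Finset V} {v : V} (hv : v ∉ Q) (hn : Q.Nonempty)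
    (hsd : ∀ i ∈ Q, side i = side v) {z : V → S} (hz : (∏ v, mm side μ c v (z v)) ≠ 0) :
    ∑ x, mm side μ c v x * hQ A μ (insert v Q) (Function.update z v x) = hQ A μ Q z := by
  have h1 : ∀ x, hQ A μ (insert v Q) (Function.update z v x) =
      ∑ y, μ y * (kk A μ x y * ∏ i ∈ Q, kk A μ (z i) y) := by
    intro x
    unfold hQ
    refine Finset.sum_congr rfl fun y _ => ?_
    rw [Finset.prod_insert hv, Function.update_self]
    congr 2
    refine Finset.prod_congr rfl fun i hi => ?_
    rw [Function.update_of_ne]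
    rintro rfl
    exact hv hi
  have h2 : ∀ y, c y ≠ side v → ∑ x, mm side μ c v x * kk A μ x y = 1 := by
    intro y hy
    rw [← h.row y]
    refine Finset.sum_congr rfl fun x _ => ?_
    rw [kk_symm h x y]
    unfold mm
    by_cases hx : c x = side v
    · rw [if_pos hx]
      unfold kk
      exact mul_div_cancel₀ _ (h.pos x).ne'
    · have h3 : kk A μ y x = 0 := kk_alt h (by
        cases h4 : c y <;> cases h5 : c x <;> cases h6 : side v <;> simp_all)
      rw [if_neg hx, zero_mul]
      unfold kk at h3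
      exact ((div_eq_zero_iff.1 h3).resolve_right (h.pos x).ne').symm
  obtain ⟨j, hj⟩ := hn
  calc ∑ x, mm side μ c v x * hQ A μ (insert v Q) (Function.update z v x)
      = ∑ x, ∑ y, (μ y * ∏ i ∈ Q, kk A μ (z i) y) * (mm side μ c v x * kk A μ x y) := by
        refine Finset.sum_congr rfl fun x _ => ?_
        rw [h1 x, Finset.mul_sum]
        exact Finset.sum_congr rfl fun y _ => by ring
    _ = ∑ y, (μ y * ∏ i ∈ Q, kk A μ (z i) y) * ∑ x, mm side μ c v x * kk A μ x y := by
        rw [Finset.sum_comm]
        exact Finset.sum_congr rfl fun y _ => (Finset.mul_sum _ _ _).symm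
    _ = _ := by
        unfold hQ
        refine Finset.sum_congr rfl fun y _ => ?_
        by_cases hy : c y = side v
        · have h3 : ∏ i ∈ Q, kk A μ (z i) y = 0 :=
            Finset.prod_eq_zero hj (kk_alt h (by rw [side_of_M hz j, hsd j hj, hy]))
          rw [h3, mul_zero, zero_mul]
        · rw [h2 y hy, mul_one]

/-- the marginals -/
theorem hQ_margU (h : Rev A μ c) {P W : Finset V} (hPn : P.Nonempty) (hPW : P ⊆ W)
    (hsd : ∀ i ∈ W, ∀ j ∈ W, side i = side j) {f : (V → S) → ℝ} (hf : DepOn P f) :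
    EM side μ c (fun z => hQ A μ W z * f z) = EM side μ c (fun z => hQ A μ P z * f z) := by
  have h1 : ∀ R : Finset V, R ⊆ W \ P →
      EM side μ c (fun z => f z * hQ A μ (R ∪ P) z) =
        EM side μ c (fun z => f z * hQ A μ P z) := by
    intro R
    induction R using Finset.induction_on with
    | empty => intro _; rw [Finset.empty_union]
    | insert v R hv ih =>
      intro hsub
      rw [← ih ((Finset.subset_insert _ _).trans hsub), Finset.insert_union]
      have hvW := mem_sdiff.1 (hsub (mem_insert_self v R))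
      have hvU : v ∉ R ∪ P := by
        rw [mem_union, not_or]
        exact ⟨hv, hvW.2⟩
      have hUW : R ∪ P ⊆ W := Finset.union_subset
        (((Finset.subset_insert _ _).trans hsub).trans Finset.sdiff_subset) hPW
      exact EM_int h hvU (hf.mono Finset.subset_union_right) fun z hz _ =>
        hQ_intU h hvU (hPn.mono Finset.subset_union_right)
          (fun i hi => hsd i (hUW hi) v hvW.1) hz
  have h2 := h1 (W \ P) (Finset.Subset.refl _)
  rw [Finset.sdiff_union_of_subset hPW] at h2
  simp only [mul_comm (f _)] at h2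
  exact h2

theorem hQ_oneU (h : Rev A μ c) {W : Finset V} (hW : W.Nonempty)
    (hsd : ∀ i ∈ W, ∀ j ∈ W, side i = side j) : EM side μ c (hQ A μ W) = 1 := by
  obtain ⟨a, ha⟩ := hW
  have h1 := hQ_margU (side := side) (A := A) h (singleton_nonempty a)
    (Finset.singleton_subset_iff.2 ha) hsd (f := fun _ => 1) (fun _ _ _ => rfl)
  simp only [mul_one, hQ_singleton h] at h1
  rw [← EM_one (side := side) h, ← h1]

/-- the relative entropies of the law of independent neighbours of a hub -/
theorem exists_dd_univ (h : Rev A μ c) (σ : Bool) (hne : ∃ v, side v = σ) :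
    ∃ d : ℕ → ℝ, d 0 = 0 ∧ d 1 = 0 ∧
      (∀ k, k + 2 ≤ (univ.filter fun v => side v = σ).card → 2 * d (k + 1) ≤ d k + d (k + 2)) ∧
      ∀ X : Finset V, X.Nonempty → (∀ x ∈ X, side x = σ) →
        EM side μ c (fun z => hQ A μ X z * Real.log (hQ A μ X z)) = d X.card := by
  let W : Finset V := univ.filter fun v => side v = σ
  have hWs : ∀ i ∈ W, side i = σ := fun i hi => (mem_filter.1 hi).2
  have hsd : ∀ i ∈ W, ∀ j ∈ W, side i = side j := fun i hi j hj => by rw [hWs i hi, hWs j hj]
  have hWn : W.Nonempty := by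
    obtain ⟨v, hv⟩ := hne
    exact ⟨v, mem_filter.2 ⟨mem_univ v, hv⟩⟩
  have hDD : ∀ P ⊆ W, P.Nonempty → DD side μ c (hQ A μ W) P =
      EM side μ c (fun z => hQ A μ W z * Real.log (hQ A μ P z)) := fun P hP hPn =>
    DD_eq h (depOn_hQ P) fun f hf => hQ_margU h hPn hP hsd hf
  obtain ⟨d, hd, h0, h1, hc⟩ := exists_dd (side := side) h (ρ := hQ A μ W)
    (hQ_nonneg h W) (hQ_oneU h hWn hsd) (A₀ := W)
    (symm_of_dens (Finset.Subset.refl _) (fun _ _ => rfl) fun _ hσ z => hQ_perm hσ z) hsd
    (fun P hP hPn => (hDD P hP hPn).symm)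
  refine ⟨d, h0, h1, hc, fun X hX hXs => ?_⟩
  have hXW : X ⊆ W := fun x hx => mem_filter.2 ⟨mem_univ x, hXs x hx⟩
  have hlog : DepOn X (fun z => Real.log (hQ A μ X z)) := fun z z' hz => by
    show Real.log (hQ A μ X z) = Real.log (hQ A μ X z')
    rw [depOn_hQ X z z' hz]
  rw [← hd X hXW, hDD X hXW hX, hQ_margU h hX hXW hsd hlog]

end DUniv

end Vale.Agent.P050.Books
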