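import Vale.Agent.P050.R2.H545.HubD2

/-!
# P050: a new vertex whose state is a conditional copy of the state of an old vertex
-/

set_option linter.unusedSectionVars false

namespace Vale.Agent.P050.Books

open Finset Vale.Agent.P050.Lev Vale.Agent.P050.Ears

section Copy

variable {V S : Type} [Fintype V] [DecidableEq V] [Fintype S]
  {side : V → Bool} {A : Matrix S S ℝ} {μ : S → ℝ} {c : S → Bool}

/-- the marginal density of the smaller set is not zero -/
theorem marg_ne (h : Rev A μ c) {ρ : (V → S) → ℝ} (hρ : ∀ z, 0 ≤ ρ z) {B B' : Finset V}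
    (hB : B ⊆ B') {z : V → S} (hz : (∏ v, mm side μ c v (z v)) ≠ 0)
    (h0 : marg side μ c ρ B' z ≠ 0) : marg side μ c ρ B z ≠ 0 :=
  ne_of_law h (marg_nonneg h hρ B') (depOn_marg ρ B) (fun f hf => by
    rw [← marg_law h ρ (hf.mono hB), marg_law h ρ hf]) hz h0

/-- one vertex is integrated out -/
theorem marg_int (h : Rev A μ c) (ρ : (V → S) → ℝ) {B : Finset V} {i : V} (hi : i ∉ B)
    {z : V → S} (hz : (∏ v, mm side μ c v (z v)) ≠ 0) :
    ∑ x, mm side μ c i x * marg side μ c ρ (insert i B) (Function.update z i x) =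
      marg side μ c ρ B z := by
  have hF : DepOn B (fun z : V → S =>
      ∑ x, mm side μ c i x * marg side μ c ρ (insert i B) (Function.update z i x)) := by
    intro z z' hz
    refine Finset.sum_congr rfl fun x _ => ?_
    congr 1
    refine depOn_marg ρ (insert i B) _ _ fun u hu => ?_
    by_cases hui : u = i
    · rw [hui, Function.update_self, Function.update_self]
    · rw [Function.update_of_ne hui, Function.update_of_ne hui]
      exact hz u ((mem_insert.1 hu).resolve_left hui)
  refine density_unique h hF (depOn_marg ρ B) (fun f hf => ?_) hz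
  rw [← marg_law h ρ hf, marg_law h ρ (hf.mono (Finset.subset_insert i B))]
  have h1 := EM_push (side := side) h hi hf (marg side μ c ρ (insert i B))
  have h2 : EM side μ c (fun z => marg side μ c ρ (insert i B) z * f z) =
      EM side μ c (fun z => f z * marg side μ c ρ (insert i B) z) :=
    EM_congr fun z _ => mul_comm _ _
  rw [h2, h1]
  exact EM_congr fun z _ => mul_comm _ _

/-- the conditional density of the state of `a` as a copy of the state of `i` given the states
of `B` -/
noncomputable def cop (side : V → Bool) (μ : S → ℝ) (c : S → Bool) (ρ : (V → S) → ℝ)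
    (B : Finset V) (i a : V) (z : V → S) : ℝ :=
  marg side μ c ρ (insert i B) (Function.update z i (z a)) * (marg side μ c ρ B z)⁻¹

theorem depOn_cop (ρ : (V → S) → ℝ) (B : Finset V) (i a : V) :
    DepOn (insert a B) (cop side μ c ρ B i a) := by
  intro z z' hz
  unfold cop
  rw [depOn_marg ρ B z z' fun u hu => hz u (mem_insert_of_mem hu)]
  congr 1
  refine depOn_marg ρ (insert i B) _ _ fun u hu => ?_
  by_cases hui : u = i
  · rw [hui, Function.update_self, Function.update_self]
    exact hz a (mem_insert_self _ _)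
  · rw [Function.update_of_ne hui, Function.update_of_ne hui]
    exact hz u (mem_insert_of_mem ((mem_insert.1 hu).resolve_left hui))

theorem cop_nonneg (h : Rev A μ c) {ρ : (V → S) → ℝ} (hρ : ∀ z, 0 ≤ ρ z) (B : Finset V)
    (i a : V) (z : V → S) : 0 ≤ cop side μ c ρ B i a z :=
  mul_nonneg (marg_nonneg h hρ _ _) (inv_nonneg.2 (marg_nonneg h hρ _ _))

theorem cop_update {ρ : (V → S) → ℝ} {B : Finset V} {i a : V} (ha : a ∉ B) (hai : a ≠ i)
    (z : V → S) (x : S) : cop side μ c ρ B i a (Function.update z a x) =
      marg side μ c ρ (insert i B) (Function.update z i x) * (marg side μ c ρ B z)⁻¹ := by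
  unfold cop
  rw [(depOn_marg ρ B).update ha, Function.update_self]
  congr 1
  refine depOn_marg ρ (insert i B) _ _ fun u hu => ?_
  by_cases hui : u = i
  · rw [hui, Function.update_self, Function.update_self]
  · rw [Function.update_of_ne hui, Function.update_of_ne hui, Function.update_of_ne]
    rintro rfl
    exact ha ((mem_insert.1 hu).resolve_left hui)

/-- the factor of the copy has mean one -/
theorem cop_sum (h : Rev A μ c) {ρ : (V → S) → ℝ} {B : Finset V} {i a : V} (hi : i ∉ B)
    (ha : a ∉ B) (hai : a ≠ i) (hsd : side a = side i) {z : V → S}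
    (hz : (∏ v, mm side μ c v (z v)) ≠ 0) (h0 : marg side μ c ρ B z ≠ 0) :
    ∑ x, mm side μ c a x * cop side μ c ρ B i a (Function.update z a x) = 1 := by
  have h1 : ∀ x, mm side μ c a x * cop side μ c ρ B i a (Function.update z a x) =
      mm side μ c i x * marg side μ c ρ (insert i B) (Function.update z i x) *
        (marg side μ c ρ B z)⁻¹ := by
    intro x
    rw [cop_update ha hai]
    unfold mm
    rw [hsd]
    ring
  rw [Finset.sum_congr rfl fun x _ => h1 x, ← Finset.sum_mul, marg_int h ρ hi hz,
    mul_inv_cancel₀ h0]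

/-- averages of functions of the old coordinates do not change -/
theorem cop_persist (h : Rev A μ c) {U B : Finset V} {i a : V} {ρ : (V → S) → ℝ}
    (hρ : ∀ z, 0 ≤ ρ z) (hdep : DepOn U ρ) (ha : a ∉ U) (hB : B ⊆ U) (hi : i ∉ B)
    (hai : a ≠ i) (hsd : side a = side i) {f : (V → S) → ℝ} (hf : DepOn U f) :
    EM side μ c (fun z => ρ z * cop side μ c ρ B i a z * f z) =
      EM side μ c (fun z => ρ z * f z) := by
  have e1 : EM side μ c (fun z => ρ z * cop side μ c ρ B i a z * f z) =
      EM side μ c (fun z => (ρ z * f z) * cop side μ c ρ B i a z) :=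
    EM_congr fun z _ => by ring
  rw [e1, EM_int h ha (hdep.mul hf) (r := cop side μ c ρ B i a) (g := fun _ => 1)]
  · exact EM_congr fun z _ => by ring
  · intro z hz h0
    exact cop_sum h hi (fun hm => ha (hB hm)) hai hsd hz
      (marg_pos h hρ B hz (left_ne_zero_of_mul h0)).ne'

/-- the law of the copy: `a` and `B'` have the law of `i` and `B'`, if `i` is independent of `B'`
given `B` -/
theorem cop_law (h : Rev A μ c) {U B B' : Finset V} {i a : V} {ρ : (V → S) → ℝ}
    (hρ : ∀ z, 0 ≤ ρ z) (hdep : DepOn U ρ) (ha : a ∉ U) (hB' : B' ⊆ U) (hBB : B ⊆ B')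
    (hi : i ∉ B') (hai : a ≠ i) (hsd : side a = side i)
    (hind : ∀ z, (∏ v, mm side μ c v (z v)) ≠ 0 →
      marg side μ c ρ (insert i B') z * marg side μ c ρ B z =
        marg side μ c ρ (insert i B) z * marg side μ c ρ B' z)
    {f : (V → S) → ℝ} (hf : DepOn (insert a B') f) :
    EM side μ c (fun z => ρ z * cop side μ c ρ B i a z * f z) =
      EM side μ c (fun z => ρ z * f (Function.update z a (z i))) := by
  have haB' : a ∉ B' := fun hm => ha (hB' hm)
  have haB : a ∉ B := fun hm => haB' (hBB hm)
  have hiB : i ∉ B := fun hm => hi (hBB hm)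
  have hg : DepOn (insert i B') (fun z : V → S => f (Function.update z a (z i))) := by
    intro z z' hz
    refine hf _ _ fun u hu => ?_
    by_cases hua : u = a
    · rw [hua, Function.update_self, Function.update_self]
      exact hz i (mem_insert_self _ _)
    · rw [Function.update_of_ne hua, Function.update_of_ne hua]
      exact hz u (mem_insert_of_mem ((mem_insert.1 hu).resolve_left hua))
  have hG : DepOn B' (fun z : V → S => ∑ x, mm side μ c a x *
      (cop side μ c ρ B i a (Function.update z a x) * f (Function.update z a x))) := by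
    intro z z' hz
    refine Finset.sum_congr rfl fun x _ => ?_
    have h1 : ∀ u ∈ insert a B', Function.update z a x u = Function.update z' a x u := by
      intro u hu
      by_cases hua : u = a
      · rw [hua, Function.update_self, Function.update_self]
      · rw [Function.update_of_ne hua, Function.update_of_ne hua]
        exact hz u ((mem_insert.1 hu).resolve_left hua)
    rw [hf _ _ h1, depOn_cop ρ B i a _ _ fun u hu => h1 u (Finset.insert_subset_insert a hBB hu)]
  have e1 : EM side μ c (fun z => ρ z * cop side μ c ρ B i a z * f z) =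
      EM side μ c (fun z => ρ z * (cop side μ c ρ B i a z * f z)) :=
    EM_congr fun z _ => mul_assoc _ _ _
  rw [e1, EM_push h ha hdep (fun z => cop side μ c ρ B i a z * f z), marg_law h ρ hG,
    marg_law h ρ hg, EM_update h i (fun z => marg side μ c ρ (insert i B') z *
      f (Function.update z a (z i)))]
  refine EM_congr fun z hz => ?_
  rw [Finset.mul_sum]
  refine Finset.sum_congr rfl fun x _ => ?_
  rw [cop_update haB hai]
  have hfx : f (Function.update (Function.update z i x) a (Function.update z i x i)) =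
      f (Function.update z a x) := by
    refine hf _ _ fun u hu => ?_
    by_cases hua : u = a
    · rw [hua, Function.update_self, Function.update_self, Function.update_self]
    · rw [Function.update_of_ne hua, Function.update_of_ne hua, Function.update_of_ne]
      rintro rfl
      exact hi ((mem_insert.1 hu).resolve_left hua)
  rw [hfx]
  have hmm : mm side μ c a x = mm side μ c i x := by
    unfold mm
    rw [hsd]
  rw [hmm]
  by_cases hx : mm side μ c i x = 0
  · rw [hx]; ring
  · have hzx : (∏ v, mm side μ c v (Function.update z i x v)) ≠ 0 := by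
      rw [Finset.prod_ne_zero_iff]
      intro v hv
      by_cases hvi : v = i
      · rw [hvi, Function.update_self]; exact hx
      · rw [Function.update_of_ne hvi]
        exact (Finset.prod_ne_zero_iff.1 hz) v hv
    have h1 := hind _ hzx
    rw [(depOn_marg ρ B).update hiB, (depOn_marg ρ B').update hi] at h1
    by_cases h0 : marg side μ c ρ B z = 0
    · have h2 : marg side μ c ρ (insert i B') (Function.update z i x) = 0 := by
        by_contra hne
        refine marg_ne h hρ (hBB.trans (Finset.subset_insert i B')) hzx hne ?_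
        rw [(depOn_marg ρ B).update hiB]
        exact h0
      rw [h2, h0]
      simp
    · have h2 : marg side μ c ρ B' z * (marg side μ c ρ (insert i B) (Function.update z i x) *
          (marg side μ c ρ B z)⁻¹) = marg side μ c ρ (insert i B') (Function.update z i x) := by
        rw [← mul_assoc, mul_comm (marg side μ c ρ B' z), ← h1, mul_assoc,
          mul_inv_cancel₀ h0, mul_one]
      calc marg side μ c ρ B' z * (mm side μ c i x *
            (marg side μ c ρ (insert i B) (Function.update z i x) *
              (marg side μ c ρ B z)⁻¹ * f (Function.update z a x)))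
          = mm side μ c i x * ((marg side μ c ρ B' z *
            (marg side μ c ρ (insert i B) (Function.update z i x) *
              (marg side μ c ρ B z)⁻¹)) * f (Function.update z a x)) := by ring
        _ = _ := by rw [h2]

/-- the mean logarithm of the factor of the copy -/
theorem cop_log (h : Rev A μ c) {U B : Finset V} {i a : V} {ρ : (V → S) → ℝ}
    (hρ : ∀ z, 0 ≤ ρ z) (hdep : DepOn U ρ) (ha : a ∉ U) (hB : B ⊆ U) (hiU : i ∈ U)
    (hi : i ∉ B) (hsd : side a = side i) :
    EM side μ c (fun z => ρ z * cop side μ c ρ B i a z *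
      Real.log (cop side μ c ρ B i a z)) =
        DD side μ c ρ (insert i B) - DD side μ c ρ B := by
  have hai : a ≠ i := fun e => ha (e ▸ hiU)
  have haB : a ∉ B := fun hm => ha (hB hm)
  rw [cop_law h hρ hdep ha hB (Finset.Subset.refl B) hi hai hsd (fun _ _ => rfl)
    (f := fun z => Real.log (cop side μ c ρ B i a z)) (fun z z' hz => by
      show Real.log (cop side μ c ρ B i a z) = Real.log (cop side μ c ρ B i a z')
      rw [depOn_cop ρ B i a z z' hz])]
  unfold DD
  rw [← EM_sub]
  refine EM_congr fun z hz => ?_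
  by_cases h0 : ρ z = 0
  · rw [h0]; ring
  · rw [cop_update haB hai, Function.update_eq_self, Real.log_mul (marg_pos h hρ _ hz h0).ne'
      (inv_pos.2 (marg_pos h hρ _ hz h0)).ne', Real.log_inv]
    ring

/-- the copy is adjacent to the common neighbours -/
theorem cop_kk (h : Rev A μ c) {U B : Finset V} {i a k : V} {ρ : (V → S) → ℝ}
    (hρ : ∀ z, 0 ≤ ρ z) (hdep : DepOn U ρ) (ha : a ∉ U) (hB : B ⊆ U) (hiU : i ∈ U)
    (hi : i ∉ B) (hsd : side a = side i) (hk : k ∈ B)
    (kp : ∀ z, (∏ v, mm side μ c v (z v)) ≠ 0 → ρ z ≠ 0 → 0 < kk A μ (z k) (z i))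
    {z : V → S} (hz : (∏ v, mm side μ c v (z v)) ≠ 0)
    (h0 : ρ z * cop side μ c ρ B i a z ≠ 0) : 0 < kk A μ (z k) (z a) := by
  classical
  have hai : a ≠ i := fun e => ha (e ▸ hiU)
  refine lt_of_le_of_ne (kk_nonneg h _ _) (Ne.symm fun hk0 => ?_)
  have hka : k ≠ a := fun e => ha (e ▸ hB hk)
  let f : (V → S) → ℝ := fun z => if kk A μ (z k) (z a) = 0 then 1 else 0
  have hf : DepOn (insert a B) f := by
    intro z z' hzz
    show (if kk A μ (z k) (z a) = 0 then (1 : ℝ) else 0) = if kk A μ (z' k) (z' a) = 0 then 1 else 0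
    rw [hzz a (mem_insert_self _ _), hzz k (mem_insert_of_mem hk)]
  have h1 := cop_law h hρ hdep ha hB (Finset.Subset.refl B) hi hai hsd (fun _ _ => rfl) hf
  have h2 : EM side μ c (fun z => ρ z * f (Function.update z a (z i))) = 0 := by
    have : EM side μ c (fun z => ρ z * f (Function.update z a (z i))) =
        EM side μ c (fun _ => (0 : ℝ)) := by
      refine EM_congr fun z hz => ?_
      by_cases hz0 : ρ z = 0
      · rw [hz0, zero_mul]
      · have : f (Function.update z a (z i)) = 0 := by
          refine if_neg ?_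
          rw [Function.update_self, Function.update_of_ne hka]
          exact (kp z hz hz0).ne'
        rw [this, mul_zero]
    rw [this]
    unfold EM
    simp
  rw [h2] at h1
  have h3 := eq_zero_of_EM (side := side) h
    (f := fun z => ρ z * cop side μ c ρ B i a z * f z) (fun z => mul_nonneg
      (mul_nonneg (hρ z) (cop_nonneg h hρ B i a z)) (by
        show (0 : ℝ) ≤ if kk A μ (z k) (z a) = 0 then 1 else 0
        split_ifs <;> norm_num)) h1 hz
  have h4 : f z = 1 := if_pos hk0
  have h5 : ρ z * cop side μ c ρ B i a z * f z = ρ z * cop side μ c ρ B i a z := by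
    rw [h4, mul_one]
  exact h0 (h5.symm.trans h3)

/-- THE CONDITIONAL COPY STEP -/
theorem LawG.copy (h : Rev A μ c) {H : SimpleGraph V}
    (hs : ∀ u v, H.Adj u v → side u ≠ side v) {U B N : Finset V} {i a : V}
    {ρ L : (V → S) → ℝ} {F : ℝ} (hl : LawG H side A μ c U ρ L F) (ha : a ∉ U) (hB : B ⊆ U)
    (hiU : i ∈ U) (hi : i ∉ B) (hsd : side a = side i) (hNB : N ⊆ B)
    (hN : ∀ x ∈ U, H.Adj a x ↔ x ∈ N)
    (kp : ∀ z, (∏ v, mm side μ c v (z v)) ≠ 0 → ρ z ≠ 0 → ∀ k ∈ N, 0 < kk A μ (z k) (z i)) :
    LawG H side A μ c (insert a U) (fun z => ρ z * cop side μ c ρ B i a z)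
      (fun z => L z * ((∏ k ∈ N, kk A μ (z k) (z a)) * (cop side μ c ρ B i a z)⁻¹))
      (F + (∑ k ∈ N, ee side A μ c ρ k i -
        (DD side μ c ρ (insert i B) - DD side μ c ρ B))) := by
  have hai : a ≠ i := fun e => ha (e ▸ hiU)
  have hNU : N ⊆ U := hNB.trans hB
  have hkk : ∀ z, (∏ v, mm side μ c v (z v)) ≠ 0 → ρ z * cop side μ c ρ B i a z ≠ 0 →
      ∀ k ∈ N, 0 < kk A μ (z k) (z a) := fun z hz h0 k hk =>
    cop_kk h hl.nonneg hl.dep ha hB hiU hi hsd (hNB hk) (fun z hz h0 => kp z hz h0 k hk) hz h0
  have hcd : DepOn (insert a U) (cop side μ c ρ B i a) :=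
    (depOn_cop ρ B i a).mono (Finset.insert_subset_insert a hB)
  refine ⟨?_, ?_, ?_, ?_, ?_, ?_, ?_⟩
  · exact (hl.dep.mono (Finset.subset_insert _ _)).mul hcd
  · intro z z' hz
    show L z * ((∏ k ∈ N, kk A μ (z k) (z a)) * (cop side μ c ρ B i a z)⁻¹) =
      L z' * ((∏ k ∈ N, kk A μ (z' k) (z' a)) * (cop side μ c ρ B i a z')⁻¹)
    rw [hl.depL z z' fun u hu => hz u (mem_insert_of_mem hu), hcd z z' hz]
    congr 2
    exact Finset.prod_congr rfl fun k hk => by
      rw [hz k (mem_insert_of_mem (hNU hk)), hz a (mem_insert_self _ _)]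
  · exact fun z => mul_nonneg (hl.nonneg z) (cop_nonneg h hl.nonneg B i a z)
  · intro z hz
    rw [edgeW_insert h hs ha hNU hN]
    have hk : 0 ≤ ∏ i ∈ N, kk A μ (z i) (z a) := Finset.prod_nonneg fun _ _ => kk_nonneg h _ _
    by_cases h0 : cop side μ c ρ B i a z = 0
    · show ρ z * cop side μ c ρ B i a z * _ ≤ _
      rw [h0, mul_zero, zero_mul]
      exact mul_nonneg (edgeW_nonneg h H U z) hk
    · refine le_trans (le_of_eq ?_) (mul_le_mul_of_nonneg_right (hl.mul z hz) hk)
      show ρ z * cop side μ c ρ B i a z *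
        (L z * ((∏ k ∈ N, kk A μ (z k) (z a)) * (cop side μ c ρ B i a z)⁻¹)) = _
      field_simp
  · intro z hz h0
    refine mul_pos (hl.pos z hz (left_ne_zero_of_mul h0)) (mul_pos
      (Finset.prod_pos fun k hk => hkk z hz h0 k hk) (inv_pos.2 ?_))
    exact lt_of_le_of_ne (cop_nonneg h hl.nonneg B i a z) (Ne.symm (right_ne_zero_of_mul h0))
  · have := cop_persist h hl.nonneg hl.dep ha hB hi hai hsd (f := fun _ => (1 : ℝ))
      (fun _ _ _ => rfl)
    simp only [mul_one] at this
    rw [this]
    exact hl.one
  · have hlogL : DepOn U (fun z : V → S => Real.log (L z)) := fun z z' hz => by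
      show Real.log (L z) = Real.log (L z')
      rw [hl.depL z z' hz]
    have hk : ∀ k ∈ N, EM side μ c (fun z => ρ z * cop side μ c ρ B i a z *
        Real.log (kk A μ (z k) (z a))) = ee side A μ c ρ k i := by
      intro k hk
      have hka : k ≠ a := fun e => ha (e ▸ hNU hk)
      rw [cop_law h hl.nonneg hl.dep ha hB (Finset.Subset.refl B) hi hai hsd (fun _ _ => rfl)
        (f := fun z => Real.log (kk A μ (z k) (z a))) (fun z z' hz => by
          show Real.log (kk A μ (z k) (z a)) = Real.log (kk A μ (z' k) (z' a))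
          rw [hz a (mem_insert_self _ _), hz k (mem_insert_of_mem (hNB hk))])]
      unfold ee
      refine EM_congr fun z _ => ?_
      rw [Function.update_self, Function.update_of_ne hka]
    have e1 : EM side μ c (fun z => ρ z * cop side μ c ρ B i a z *
        Real.log (L z * ((∏ k ∈ N, kk A μ (z k) (z a)) * (cop side μ c ρ B i a z)⁻¹))) =
        EM side μ c (fun z => (ρ z * cop side μ c ρ B i a z * Real.log (L z) +
          ∑ k ∈ N, ρ z * cop side μ c ρ B i a z * Real.log (kk A μ (z k) (z a))) -
            ρ z * cop side μ c ρ B i a z * Real.log (cop side μ c ρ B i a z)) := by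
      refine EM_congr fun z hz => ?_
      by_cases h0 : ρ z * cop side μ c ρ B i a z = 0
      · rw [h0]; simp
      · have p1 : 0 < L z := hl.pos z hz (left_ne_zero_of_mul h0)
        have p2 : 0 < ∏ k ∈ N, kk A μ (z k) (z a) :=
          Finset.prod_pos fun k hk => hkk z hz h0 k hk
        have p3 : 0 < cop side μ c ρ B i a z :=
          lt_of_le_of_ne (cop_nonneg h hl.nonneg B i a z) (Ne.symm (right_ne_zero_of_mul h0))
        rw [Real.log_mul p1.ne' (mul_pos p2 (inv_pos.2 p3)).ne',
          Real.log_mul p2.ne' (inv_pos.2 p3).ne', Real.log_inv,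
          Real.log_prod (fun k hk => (hkk z hz h0 k hk).ne'), ← Finset.mul_sum]
        ring
    rw [e1, EM_sub, EM_add, EM_sum N fun k z => ρ z * cop side μ c ρ B i a z *
      Real.log (kk A μ (z k) (z a)), cop_log h hl.nonneg hl.dep ha hB hiU hi hsd,
      cop_persist h hl.nonneg hl.dep ha hB hi hai hsd hlogL, Finset.sum_congr rfl hk]
    have := hl.log
    linarith

end Copy

end Vale.Agent.P050.Books
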