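import Vale.Agent.P050.R4.H859.Def

/-!
# P050, series-parallel graphs: decidability of the class, paths, theta graphs, necklaces
-/

namespace Vale.Agent.P050.SP

deriving instance DecidableEq for SP

section Decide

instance decBip : ∀ e : SP, Decidable (bip e)
  | .edge => isTrue trivial
  | .ser a b =>
    have := decBip a
    have := decBip b
    inferInstanceAs (Decidable (bip a ∧ bip b))
  | .par a b =>
    have := decBip a
    have := decBip b
    inferInstanceAs (Decidable (bip a ∧ bip b ∧ len a % 2 = len b % 2))
  | .hang a b =>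
    have := decBip a
    have := decBip b
    inferInstanceAs (Decidable (bip a ∧ bip b))
  | .hangR a b =>
    have := decBip a
    have := decBip b
    inferInstanceAs (Decidable (bip a ∧ bip b))

instance decDirect : ∀ e : SP, Decidable (direct e)
  | .edge => isTrue trivial
  | .ser _ _ => isFalse id
  | .par a b =>
    have := decDirect a
    have := decDirect b
    inferInstanceAs (Decidable (direct a ∨ direct b))
  | .hang a _ =>
    have := decDirect a
    inferInstanceAs (Decidable (direct a))
  | .hangR a _ =>
    have := decDirect a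
    inferInstanceAs (Decidable (direct a))

instance decSimple : ∀ e : SP, Decidable (simple e)
  | .edge => isTrue trivial
  | .ser a b =>
    have := decSimple a
    have := decSimple b
    inferInstanceAs (Decidable (simple a ∧ simple b))
  | .par a b =>
    have := decSimple a
    have := decSimple b
    inferInstanceAs (Decidable (simple a ∧ simple b ∧ ¬ (direct a ∧ direct b)))
  | .hang a b =>
    have := decSimple a
    have := decSimple b
    inferInstanceAs (Decidable (simple a ∧ simple b))
  | .hangR a b =>
    have := decSimple a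
    have := decSimple b
    inferInstanceAs (Decidable (simple a ∧ simple b))

/-- Boolean form of `Balanced` -/
def balB : SP → Bool
  | .edge => true
  | .ser a b => balB a && balB b
  | .par a b => balB a && balB b && ((len a == len b) || (len a == 1 && len b % 2 == 1))
  | .hang a b => balB a && balB b
  | .hangR a b => balB a && balB b

theorem balB_iff : ∀ {e : SP}, balB e = true ↔ Balanced e
  | .edge => ⟨fun _ => .edge, fun _ => rfl⟩
  | .ser a b => by
    simp only [balB, Bool.and_eq_true]
    constructor
    · rintro ⟨h1, h2⟩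
      exact .ser (balB_iff.1 h1) (balB_iff.1 h2)
    · intro h
      cases h with
      | ser h1 h2 => exact ⟨balB_iff.2 h1, balB_iff.2 h2⟩
  | .par a b => by
    simp only [balB, Bool.and_eq_true, Bool.or_eq_true, beq_iff_eq]
    constructor
    · rintro ⟨⟨h1, h2⟩, h3 | ⟨h3, h4⟩⟩
      · exact .par (balB_iff.1 h1) (balB_iff.1 h2) h3
      · exact .load (balB_iff.1 h1) (balB_iff.1 h2) h3 h4
    · intro h
      cases h with
      | par h1 h2 h3 => exact ⟨⟨balB_iff.2 h1, balB_iff.2 h2⟩, Or.inl h3⟩
      | load h1 h2 h3 h4 => exact ⟨⟨balB_iff.2 h1, balB_iff.2 h2⟩, Or.inr ⟨h3, h4⟩⟩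
  | .hang a b => by
    simp only [balB, Bool.and_eq_true]
    constructor
    · rintro ⟨h1, h2⟩
      exact .hang (balB_iff.1 h1) (balB_iff.1 h2)
    · intro h
      cases h with
      | hang h1 h2 => exact ⟨balB_iff.2 h1, balB_iff.2 h2⟩
  | .hangR a b => by
    simp only [balB, Bool.and_eq_true]
    constructor
    · rintro ⟨h1, h2⟩
      exact .hangR (balB_iff.1 h1) (balB_iff.1 h2)
    · intro h
      cases h with
      | hangR h1 h2 => exact ⟨balB_iff.2 h1, balB_iff.2 h2⟩

instance decBalanced (e : SP) : Decidable (Balanced e) := decidable_of_iff _ balB_iff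

/-- Boolean form of `Nice` -/
def niceB : SP → Bool
  | .edge => true
  | .ser a b => (niceB a && balB b) || (balB a && niceB b)
  | .par a b => niceB a && niceB b && (len a % 2 == len b % 2)
  | .hang a b => niceB a && niceB b
  | .hangR a b => niceB a && niceB b

theorem niceB_iff : ∀ {e : SP}, niceB e = true ↔ Nice e
  | .edge => ⟨fun _ => .edge, fun _ => rfl⟩
  | .ser a b => by
    simp only [niceB, Bool.and_eq_true, Bool.or_eq_true]
    constructor
    · rintro (⟨h1, h2⟩ | ⟨h1, h2⟩)
      · exact .serR (niceB_iff.1 h1) (balB_iff.1 h2)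
      · exact .serL (balB_iff.1 h1) (niceB_iff.1 h2)
    · intro h
      cases h with
      | serR h1 h2 => exact Or.inl ⟨niceB_iff.2 h1, balB_iff.2 h2⟩
      | serL h1 h2 => exact Or.inr ⟨balB_iff.2 h1, niceB_iff.2 h2⟩
  | .par a b => by
    simp only [niceB, Bool.and_eq_true, beq_iff_eq]
    constructor
    · rintro ⟨⟨h1, h2⟩, h3⟩
      exact .par (niceB_iff.1 h1) (niceB_iff.1 h2) h3
    · intro h
      cases h with
      | par h1 h2 h3 => exact ⟨⟨niceB_iff.2 h1, niceB_iff.2 h2⟩, h3⟩
  | .hang a b => by
    simp only [niceB, Bool.and_eq_true]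
    constructor
    · rintro ⟨h1, h2⟩
      exact .hang (niceB_iff.1 h1) (niceB_iff.1 h2)
    · intro h
      cases h with
      | hang h1 h2 => exact ⟨niceB_iff.2 h1, niceB_iff.2 h2⟩
  | .hangR a b => by
    simp only [niceB, Bool.and_eq_true]
    constructor
    · rintro ⟨h1, h2⟩
      exact .hangR (niceB_iff.1 h1) (niceB_iff.1 h2)
    · intro h
      cases h with
      | hangR h1 h2 => exact ⟨niceB_iff.2 h1, niceB_iff.2 h2⟩

instance decNice (e : SP) : Decidable (Nice e) := decidable_of_iff _ niceB_iff

/-- Boolean form of `Good` -/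
def goodB : SP → ℕ → Bool
  | .edge, d => d == 1
  | .par a b, d => (goodB a d && goodB b d) ||
      (balB (.par a b) && decide (d ≤ len (.par a b)) && (d % 2 == len (.par a b) % 2))
  | .ser a b, d =>
      (balB (.ser a b) && decide (d ≤ len (.ser a b)) && (d % 2 == len (.ser a b) % 2)) ||
      (goodB a (len a) && balB b && decide (len a ≤ d + len b) && decide (d ≤ len a + len b) &&
        (d % 2 == (len a + len b) % 2)) ||
      (balB a && goodB b (len b) && decide (len b ≤ d + len a) && decide (d ≤ len a + len b) &&
        (d % 2 == (len a + len b) % 2)) ||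
      (goodB a (len a) && goodB b (len b) && (d == len a + len b)) ||
      (goodB a (d + len b) && goodB b (len b)) || (goodB a (len a) && goodB b (d + len a))
  | .hang a b, d => (goodB a d && goodB b (len b)) ||
      (balB (.hang a b) && decide (d ≤ len a) && (d % 2 == len a % 2))
  | .hangR a b, d => (goodB a d && goodB b (len b)) ||
      (balB (.hangR a b) && decide (d ≤ len a) && (d % 2 == len a % 2))

theorem good_of_goodB : ∀ {e : SP} {d : ℕ}, goodB e d = true → Good e d
  | .edge, d, h => by
    simp only [goodB, beq_iff_eq] at h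
    subst h
    exact .bal .edge le_rfl rfl
  | .par a b, d, h => by
    simp only [goodB, Bool.or_eq_true, Bool.and_eq_true, decide_eq_true_eq, beq_iff_eq] at h
    rcases h with ⟨h1, h2⟩ | ⟨⟨h1, h2⟩, h3⟩
    · exact .par (good_of_goodB h1) (good_of_goodB h2)
    · exact .bal (balB_iff.1 h1) h2 h3
  | .ser a b, d, h => by
    simp only [goodB, Bool.or_eq_true, Bool.and_eq_true, decide_eq_true_eq, beq_iff_eq] at h
    rcases h with ((((⟨⟨h1, h2⟩, h3⟩ | ⟨⟨⟨⟨h1, h2⟩, h3⟩, h4⟩, h5⟩) | ⟨⟨⟨⟨h1, h2⟩, h3⟩, h4⟩, h5⟩) |
      ⟨⟨h1, h2⟩, h3⟩) | ⟨h1, h2⟩) | ⟨h1, h2⟩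
    · exact .bal (balB_iff.1 h1) h2 h3
    · exact .serR (good_of_goodB h1) (balB_iff.1 h2) h3 h4 h5
    · exact .serL (balB_iff.1 h1) (good_of_goodB h2) h3 h4 h5
    · subst h3
      exact .chain (good_of_goodB h1) (good_of_goodB h2)
    · exact .longR (good_of_goodB h1) (good_of_goodB h2)
    · exact .longL (good_of_goodB h1) (good_of_goodB h2)
  | .hang a b, d, h => by
    simp only [goodB, Bool.or_eq_true, Bool.and_eq_true, decide_eq_true_eq, beq_iff_eq] at h
    rcases h with ⟨h1, h2⟩ | ⟨⟨h1, h2⟩, h3⟩
    · exact .hang (good_of_goodB h1) (good_of_goodB h2)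
    · exact .bal (balB_iff.1 h1) h2 h3
  | .hangR a b, d, h => by
    simp only [goodB, Bool.or_eq_true, Bool.and_eq_true, decide_eq_true_eq, beq_iff_eq] at h
    rcases h with ⟨h1, h2⟩ | ⟨⟨h1, h2⟩, h3⟩
    · exact .hangR (good_of_goodB h1) (good_of_goodB h2)
    · exact .bal (balB_iff.1 h1) h2 h3

end Decide

section Families

/-- the path with `n + 1` edges -/
def path : ℕ → SP
  | 0 => .edge
  | n + 1 => .ser .edge (path n)

theorem len_path (n : ℕ) : len (path n) = n + 1 := by
  induction n with
  | zero => rfl
  | succ n ih => simp only [path, len, ih]; omega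

theorem balanced_path (n : ℕ) : Balanced (path n) := by
  induction n with
  | zero => exact .edge
  | succ n ih => exact .ser .edge ih

theorem simple_path (n : ℕ) : simple (path n) := by
  induction n with
  | zero => trivial
  | succ n ih => exact ⟨trivial, ih⟩

theorem not_direct_path (n : ℕ) : ¬ direct (path (n + 1)) := id

/-- `k + 1` parallel copies of `e` -/
def copies (e : SP) : ℕ → SP
  | 0 => e
  | k + 1 => .par e (copies e k)

theorem len_copies (e : SP) (k : ℕ) : len (copies e k) = len e := by
  induction k with
  | zero => rfl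
  | succ k ih => simp only [copies, len, ih, min_self]

theorem balanced_copies {e : SP} (h : Balanced e) (k : ℕ) : Balanced (copies e k) := by
  induction k with
  | zero => exact h
  | succ k ih => exact .par h ih (len_copies e k).symm

theorem nice_copies {e : SP} (h : Nice e) (k : ℕ) : Nice (copies e k) := by
  induction k with
  | zero => exact h
  | succ k ih => exact .par h ih (by rw [len_copies])

theorem direct_copies (e : SP) (k : ℕ) : direct (copies e k) ↔ direct e := by
  induction k with
  | zero => exact Iff.rfl
  | succ k ih => simp only [copies, direct, ih, or_self]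

theorem simple_copies {e : SP} (h : simple e) (hd : ¬ direct e) (k : ℕ) :
    simple (copies e k) := by
  induction k with
  | zero => exact h
  | succ k ih => exact ⟨h, ih, fun h' => hd h'.1⟩

/-- `k + 1` copies of `e` in series (a necklace) -/
def chainOf (e : SP) : ℕ → SP
  | 0 => e
  | k + 1 => .ser e (chainOf e k)

theorem len_chainOf (e : SP) (k : ℕ) : len (chainOf e k) = (k + 1) * len e := by
  induction k with
  | zero => simp [chainOf]
  | succ k ih =>
    simp only [chainOf, len, ih]
    ring

theorem balanced_chainOf {e : SP} (h : Balanced e) (k : ℕ) : Balanced (chainOf e k) := by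
  induction k with
  | zero => exact h
  | succ k ih => exact .ser h ih

theorem simple_chainOf {e : SP} (h : simple e) (k : ℕ) : simple (chainOf e k) := by
  induction k with
  | zero => exact h
  | succ k ih => exact ⟨h, ih⟩

theorem Balanced.nice {e : SP} (h : Balanced e) : Nice e := by
  induction h with
  | edge => exact .edge
  | ser _ hb h1 _ => exact .serR h1 hb
  | par _ _ h h1 h2 => exact .par h1 h2 (by rw [h])
  | load _ _ h h' h1 h2 => exact .par h1 h2 (by rw [h, h'])
  | hang _ _ h1 h2 => exact .hang h1 h2
  | hangR _ _ h1 h2 => exact .hangR h1 h2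

/-- a list of expressions in parallel -/
def parL (e : SP) : List SP → SP
  | [] => e
  | a :: L => .par a (parL e L)

theorem nice_parL {e : SP} (h : Nice e) : ∀ {L : List SP},
    (∀ a ∈ L, Nice a ∧ len a % 2 = len e % 2) → Nice (parL e L) ∧ len (parL e L) % 2 = len e % 2
  | [], _ => ⟨h, rfl⟩
  | a :: L, hL => by
    have h1 := nice_parL h fun b hb => hL b (List.mem_cons_of_mem _ hb)
    have h2 := hL a List.mem_cons_self
    refine ⟨.par h2.1 h1.1 (by rw [h2.2, h1.2]), ?_⟩
    simp only [parL, len]
    rcases Nat.le_total (len a) (len (parL e L)) with h | h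
    · rw [min_eq_left h]; exact h2.2
    · rw [min_eq_right h]; exact h1.2

/-- a list of balanced expressions in series with one expression -/
def serL' (e : SP) : List SP → SP
  | [] => e
  | a :: L => .ser a (serL' e L)

theorem nice_serL' {e : SP} (h : Nice e) : ∀ {L : List SP}, (∀ a ∈ L, Balanced a) →
    Nice (serL' e L)
  | [], _ => h
  | a :: L, hL =>
    .serL (hL a List.mem_cons_self) (nice_serL' h fun b hb => hL b (List.mem_cons_of_mem _ hb))

end Families

end Vale.Agent.P050.SP
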