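import Vale.Agent.P050.R4.H987.Ex

/-!
# P050, series-parallel graphs: polygons with an even number of sides, glued along sides

`Fat c`: start from arbitrary gadgets of the class with length `c` and glue, again and again,
polygons with an even number of sides along sides; each side is such a gadget.
-/

namespace Vale.Agent.P050.SP

/-- a nonempty list of expressions in series -/
def chainL : SP → List SP → SP
  | a, [] => a
  | a, b :: L => .ser a (chainL b L)

/-- Fat even polygons glued along sides, the sides have length `c`. -/
inductive Fat (c : ℕ) : SP → Prop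
  | base {e : SP} : Good e c → len e = c → Fat c e
  | glue {e a : SP} {L : List SP} : Fat c e → Fat c a → (∀ b ∈ L, Fat c b) → 2 ≤ L.length →
      L.length % 2 = 0 → Fat c (.par e (chainL a L))

theorem len_chainL {c : ℕ} : ∀ {a : SP} {L : List SP}, len a = c → (∀ b ∈ L, len b = c) →
    len (chainL a L) = (L.length + 1) * c
  | a, [], ha, _ => by simp [chainL, ha]
  | a, b :: L, ha, hL => by
    have ih := len_chainL (a := b) (L := L) (hL b List.mem_cons_self)
      fun x hx => hL x (List.mem_cons_of_mem _ hx)
    simp only [chainL, len, ih, ha, List.length_cons]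
    ring

theorem good_chainL {c : ℕ} : ∀ {a : SP} {L : List SP}, (Good a c ∧ len a = c) →
    (∀ b ∈ L, Good b c ∧ len b = c) → ∀ m, m ≤ L.length + 1 → m % 2 = (L.length + 1) % 2 →
      Good (chainL a L) (m * c)
  | a, [], ha, _, m, h1, h2 => by
    simp only [List.length_nil] at h1 h2
    have : m = 1 := by omega
    subst this
    rw [one_mul]
    exact ha.1
  | a, b :: L, ha, hL, m, h1, h2 => by
    simp only [List.length_cons] at h1 h2
    have hb := hL b List.mem_cons_self
    have hL' : ∀ x ∈ L, Good x c ∧ len x = c := fun x hx => hL x (List.mem_cons_of_mem _ hx)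
    have hlen := len_chainL (c := c) (a := b) (L := L) hb.2 fun x hx => (hL' x hx).2
    have ha' : Good a (len a) := by rw [ha.2]; exact ha.1
    rcases Nat.lt_or_ge m (L.length + 2) with h3 | h3
    · have ih := good_chainL hb hL' (m + 1) (by omega) (by omega)
      refine .longL ha' ?_
      have e : m * c + len a = (m + 1) * c := by rw [ha.2]; ring
      rw [e]
      exact ih
    · have hm : m = L.length + 2 := by omega
      subst hm
      have ih := good_chainL hb hL' (L.length + 1) le_rfl rfl
      have h4 := Good.chain ha' (b := chainL b L) (by rw [hlen]; exact ih)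
      have e : len a + len (chainL b L) = (L.length + 2) * c := by rw [ha.2, hlen]; ring
      rw [e] at h4
      exact h4

theorem Fat.good {c : ℕ} {e : SP} (h : Fat c e) : Good e c ∧ len e = c := by
  induction h with
  | base h1 h2 => exact ⟨h1, h2⟩
  | @glue e a L _ _ _ h2 h0 ihe iha ihL =>
    have h3 := good_chainL iha ihL 1 (by omega) (by omega)
    rw [one_mul] at h3
    refine ⟨.par ihe.1 h3, ?_⟩
    have h4 := len_chainL (c := c) iha.2 fun b hb => (ihL b hb).2
    simp only [len, ihe.2, h4]
    refine min_eq_left ?_
    exact Nat.le_mul_of_pos_left c (Nat.succ_pos _)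

theorem Fat.good' {c : ℕ} {e : SP} (h : Fat c e) : Good e (len e) := by
  rw [h.good.2]
  exact h.good.1

/-- Simple fat even polygons (no double edges). -/
theorem simple_chainL : ∀ {a : SP} {L : List SP}, simple a → (∀ b ∈ L, simple b) →
    simple (chainL a L)
  | _, [], ha, _ => ha
  | _, b :: _, ha, hL => ⟨ha, simple_chainL (hL b List.mem_cons_self)
      fun x hx => hL x (List.mem_cons_of_mem _ hx)⟩

theorem not_direct_chainL {a b : SP} {L : List SP} : ¬ direct (chainL a (b :: L)) := id

/-- Even polygons glued along edges: the 2-connected graphs built from one edge by gluing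
even cycles along existing edges. -/
inductive Cells : SP → Prop
  | edge : Cells .edge
  | glue {e a : SP} {L : List SP} : Cells e → Cells a → (∀ b ∈ L, Cells b) → 2 ≤ L.length →
      L.length % 2 = 0 → Cells (.par e (chainL a L))

theorem Cells.fat {e : SP} (h : Cells e) : Fat 1 e := by
  induction h with
  | edge => exact .base (.bal .edge le_rfl rfl) rfl
  | glue _ _ _ h2 h0 ihe iha ihL => exact .glue ihe iha ihL h2 h0

theorem Cells.simple {e : SP} (h : Cells e) : SP.simple e := by
  induction h with
  | edge => trivial
  | @glue e a L _ _ _ h2 h0 ihe iha ihL =>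
    refine ⟨ihe, simple_chainL iha ihL, ?_⟩
    rintro ⟨-, hd⟩
    cases L with
    | nil => simp at h2
    | cons b L => exact hd

/-- Replacing the edges: `subst f e` replaces the edges of `e`, numbered from left to right
starting with `n`, by the gadgets `f n, f (n + 1), …` -/
def nE : SP → ℕ
  | .edge => 1
  | .ser a b => nE a + nE b
  | .par a b => nE a + nE b
  | .hang a b => nE a + nE b
  | .hangR a b => nE a + nE b

/-- the expression `e` with its `i`-th edge replaced by `f (n + i)` -/
def subst (f : ℕ → SP) : SP → ℕ → SP
  | .edge, n => f n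
  | .ser a b, n => .ser (subst f a n) (subst f b (n + nE a))
  | .par a b, n => .par (subst f a n) (subst f b (n + nE a))
  | .hang a b, n => .hang (subst f a n) (subst f b (n + nE a))
  | .hangR a b, n => .hangR (subst f a n) (subst f b (n + nE a))

/-- the lists of the replaced parts of a chain -/
theorem subst_chainL (f : ℕ → SP) {P : SP → Prop} : ∀ {a : SP} {L : List SP} (n : ℕ),
    (∀ m, P (subst f a m)) → (∀ b ∈ L, ∀ m, P (subst f b m)) →
      ∃ (a' : SP) (L' : List SP), subst f (chainL a L) n = chainL a' L' ∧ P a' ∧
        (∀ b ∈ L', P b) ∧ L'.length = L.length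
  | a, [], n, ha, _ => ⟨subst f a n, [], rfl, ha n, by simp, rfl⟩
  | a, b :: L, n, ha, hL => by
    obtain ⟨a', L', h1, h2, h3, h4⟩ := subst_chainL f (P := P) (a := b) (L := L) (n + nE a)
      (hL b List.mem_cons_self) fun x hx => hL x (List.mem_cons_of_mem _ hx)
    refine ⟨subst f a n, a' :: L', ?_, ha n, ?_, by simp [h4]⟩
    · simp only [chainL, subst, h1]
    · intro x hx
      rcases List.mem_cons.1 hx with rfl | hx
      · exact h2
      · exact h3 x hx

/-- If `e` is built from an edge by gluing even cycles along edges and all edges of `e` are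
replaced by gadgets of one length `c` (different gadgets are allowed), the result is in the
class. -/
theorem Cells.subst_fat {e : SP} (h : Cells e) {c : ℕ} {f : ℕ → SP}
    (hf : ∀ n, Good (f n) c ∧ len (f n) = c) : ∀ n, Fat c (subst f e n) := by
  induction h with
  | edge => exact fun n => .base (hf n).1 (hf n).2
  | @glue e a L _ _ _ h2 h0 ihe iha ihL =>
    intro n
    obtain ⟨a', L', h3, h4, h5, h6⟩ := subst_chainL f (P := Fat c) (a := a) (L := L)
      (n + nE e) iha ihL
    simp only [subst, h3]
    exact .glue (ihe n) h4 h5 (by omega) (by omega)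

end Vale.Agent.P050.SP
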