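import Vale.Agent.P050.R4.H153.Frame

/-!
# P050, frames: new edges at a vertex, subdivided edges
-/

namespace Vale.Agent.P050.SP

open Finset Matrix Vale.Agent.P050.Ears Vale.Agent.P050.Lev

/-- the sides of the old records -/
theorem TOK.old {V W : Type} {side : V → Bool} {side' : W → Bool} {E : Multiset (V × ℕ × V)}
    (hs : TOK side E) : TOK (Sum.elim side side') (E.map (emap (Sum.inl : V → V ⊕ W))) := by
  intro p hp
  obtain ⟨q, hq, rfl⟩ := Multiset.mem_map.1 hp
  exact hs q hq

/-- the sides after a new edge at `a` -/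
theorem TOK.pen {V : Type} {side : V → Bool} {E : Multiset (V × ℕ × V)} (hs : TOK side E)
    (a : V) (d : ℕ) : TOK (Sum.elim side fun _ : Unit => sh (side a) d)
      ((.inl a, d, .inr ()) ::ₘ E.map (emap .inl)) := by
  intro p hp
  rcases Multiset.mem_cons.1 hp with rfl | hp
  · rfl
  · exact hs.old p hp

/-- the sides after subdividing an edge -/
theorem TOK.sub {V : Type} {side : V → Bool} {E : Multiset (V × ℕ × V)} {u w : V} {d d' : ℕ}
    (hs : TOK side ((u, d + d', w) ::ₘ E)) : TOK (Sum.elim side fun _ : Unit => sh (side u) d)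
      ((.inl u, d, .inr ()) ::ₘ (.inr (), d', .inl w) ::ₘ E.map (emap .inl)) := by
  intro p hp
  rcases Multiset.mem_cons.1 hp with rfl | hp
  · rfl
  · rcases Multiset.mem_cons.1 hp with rfl | hp
    · change side w = sh (sh (side u) d) d'
      rw [sh_add]
      exact hs _ (Multiset.mem_cons_self _ _)
    · exact TOK.old (fun q hq => hs q (Multiset.mem_cons_of_mem hq)) p hp

section

variable {S : Type} [Fintype S] [DecidableEq S] {A : Matrix S S ℝ} {μ : S → ℝ} {c : S → Bool}
variable {V : Type}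

omit [Fintype S] [DecidableEq S] in
theorem mus_unit (s : Bool) (x : S) :
    mus (fun _ : Unit => s) μ c (fun _ => x) = if c x = s then μ x else 0 := by
  unfold mus
  simp only [Finset.univ_unique, Finset.prod_singleton]

/-- the total weight of the end of a new edge -/
theorem zw_pen (h : Rev A μ c) {a : V} {d : ℕ} {s : Bool} {z : V → S} (hz : c (z a) = s) :
    zw A μ c (fun _ : Unit => sh s d)
      ({(.inl a, d, .inr ())} : Multiset ((V ⊕ Unit) × ℕ × (V ⊕ Unit))) z = 1 := by
  unfold zw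
  rw [sum_unit, ← kap_row h hz d]
  refine Finset.sum_congr rfl fun x _ => ?_
  unfold nw
  rw [mus_unit, ← Multiset.cons_zero, kapE_cons, kapE_zero, mul_one]
  rfl

/-- the total weight of the middle point of a subdivided edge -/
theorem zw_sub (h : Rev A μ c) {u w : V} {d d' : ℕ} {s : Bool} {z : V → S} (hz : c (z u) = s) :
    zw A μ c (fun _ : Unit => sh s d)
      ((.inl u, d, .inr ()) ::ₘ {(.inr (), d', .inl w)} :
        Multiset ((V ⊕ Unit) × ℕ × (V ⊕ Unit))) z = kap A μ (d + d') (z u) (z w) := by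
  unfold zw
  rw [sum_unit, ← kap_mid h hz d d' (z w)]
  refine Finset.sum_congr rfl fun x _ => ?_
  unfold nw
  rw [mus_unit, kapE_cons, ← Multiset.cons_zero, kapE_cons, kapE_zero, mul_one]
  rfl

end

section

variable {V : Type} [iF : Fintype V] [iD : DecidableEq V] {side : V → Bool}
variable {R : Set (Set V × Multiset (V × ℕ × V))}

/-- the law after a new edge at a vertex -/
theorem LawF.pen {S : Type} [Fintype S] [DecidableEq S] {A : Matrix S S ℝ} {μ : S → ℝ}
    {c : S → Bool} (h : Rev A μ c) {L : Multiset (V × ℕ × V)} {P : (V → S) → ℝ}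
    (hP : LawF L side A μ c P) (a : V) (d : ℕ) :
    LawF ((.inl a, d, .inr ()) ::ₘ L.map (emap .inl))
      (Sum.elim side fun _ : Unit => sh (side a) d) A μ c
        (extP A μ c (fun _ : Unit => sh (side a) d)
          ({(.inl a, d, .inr ())} : Multiset ((V ⊕ Unit) × ℕ × (V ⊕ Unit))) P) := by
  have hz : ∀ z : V → S, P z ≠ 0 → zw A μ c (fun _ : Unit => sh (side a) d)
      ({(.inl a, d, .inr ())} : Multiset ((V ⊕ Unit) × ℕ × (V ⊕ Unit))) z = 1 :=
    fun z hz => zw_pen h (mus_side (hP.mus_ne hz) a)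
  have hZ : ∀ z : V → S, P z ≠ 0 → zw A μ c (fun _ : Unit => sh (side a) d)
      ({(.inl a, d, .inr ())} : Multiset ((V ⊕ Unit) × ℕ × (V ⊕ Unit))) z ≠ 0 :=
    fun z h0 => by rw [hz z h0]; exact one_ne_zero
  have hL : ∀ z : V → S, kapE A μ L z = (fun _ : V → S => (1 : ℝ)) z * kapE A μ L z :=
    fun z => (one_mul _).symm
  have hE : ∑ z, P z * Real.log ((fun _ : V → S => (1 : ℝ)) z) ≤
      ∑ z, P z * Real.log (zw A μ c (fun _ : Unit => sh (side a) d)
        ({(.inl a, d, .inr ())} : Multiset ((V ⊕ Unit) × ℕ × (V ⊕ Unit))) z) := by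
    refine Finset.sum_le_sum fun z _ => ?_
    by_cases h0 : P z = 0
    · rw [h0, zero_mul, zero_mul]
    · rw [hz z h0]
  have h1 := LawF.ext h hL hP hZ hE
  rwa [add_comm, Multiset.singleton_add] at h1

/-- the new records after a new edge at a vertex -/
theorem MargT.pen {S : Type} [Fintype S] [DecidableEq S] {A : Matrix S S ℝ} {μ : S → ℝ}
    {c : S → Bool} (h : Rev A μ c) {U : Set V} {E : Multiset (V × ℕ × V)} {P : (V → S) → ℝ}
    (hm : MargT A μ c side P (U, E)) {a : V} (ha : a ∈ U) (d : ℕ) :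
    MargT A μ c (Sum.elim side fun _ : Unit => sh (side a) d)
      (extP A μ c (fun _ : Unit => sh (side a) d)
          ({(.inl a, d, .inr ())} : Multiset ((V ⊕ Unit) × ℕ × (V ⊕ Unit))) P)
      (Sum.inl '' U ∪ {.inr ()}, (.inl a, d, .inr ()) ::ₘ E.map (emap .inl)) := by
  refine MargT.ext_new (E₁ := E) h hm (fun v hv => ?_) (fun p hp => ?_)
    (fun z y => ?_) (fun G _ => ?_)
  · rcases hv with hv | hv
    · obtain ⟨v', hv', hv''⟩ := hv
      rwa [← Sum.inl_injective hv'']
    · exact absurd hv (by simp)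
  · rw [Multiset.mem_singleton.1 hp]
    exact ⟨fun v hv => Or.inl ⟨a, ha, hv⟩, fun v hv => absurd hv (by simp)⟩
  · rw [kapE_cons, kapE_map, ← Multiset.cons_zero, kapE_cons, kapE_zero, mul_one, mul_comm]
    rfl
  · refine Finset.sum_congr rfl fun z _ => ?_
    by_cases h1 : mus side μ c z = 0
    · rw [h1]; ring
    · rw [zw_pen h (mus_side h1 a)]; ring

/-- A new edge at a vertex of a record. -/
theorem FOK.pen {L : Multiset (V × ℕ × V)} (hT : FOK L R iF iD side) (a : V) (d : ℕ) :
    FOK ((.inl a, d, .inr ()) ::ₘ L.map (emap .inl)) (penT R a d) inferInstance inferInstance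
      (Sum.elim side fun _ : Unit => sh (side a) d) := by
  refine ⟨hT.virt.pen a d, fun r hr => ?_, fun S _ _ A μ c h => ?_⟩
  · rcases hr with hr | hr
    · obtain ⟨r₀, h0, rfl⟩ := hr
      exact (hT.rok r₀ h0).old
    · obtain ⟨U, E, h0, _, rfl⟩ := hr
      exact (hT.rok _ h0).pen a d
  · obtain ⟨P, hP, hm⟩ := hT.law S A μ c h
    refine ⟨_, hP.pen h a d, fun r hr => ?_⟩
    rcases hr with hr | hr
    · obtain ⟨r₀, h0, rfl⟩ := hr
      refine MargT.ext_old h (fun z hz => ?_) (hm r₀ h0)
      rw [zw_pen h (mus_side (hP.mus_ne hz) a)]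
      exact one_ne_zero
    · obtain ⟨U, E, h0, ha, rfl⟩ := hr
      exact (hm _ h0).pen h ha d

/-- A subdivided edge. -/
theorem FOK.sub {L : Multiset (V × ℕ × V)} {u w : V} {d d' : ℕ}
    (hT : FOK ((u, d + d', w) ::ₘ L) R iF iD side) :
    FOK ((.inl u, d, .inr ()) ::ₘ (.inr (), d', .inl w) ::ₘ L.map (emap .inl))
      (subT R u d d' w) inferInstance inferInstance
        (Sum.elim side fun _ : Unit => sh (side u) d) := by
  refine ⟨hT.virt.sub, fun r hr => ?_, fun S _ _ A μ c h => ?_⟩
  · rcases hr with hr | hr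
    · obtain ⟨r₀, h0, rfl⟩ := hr
      exact (hT.rok r₀ h0).old
    · obtain ⟨U, E, h0, _, _, rfl⟩ := hr
      exact (hT.rok _ h0).sub
  · obtain ⟨P, hP, hm⟩ := hT.law S A μ c h
    have hz : ∀ z : V → S, mus side μ c z ≠ 0 → zw A μ c (fun _ : Unit => sh (side u) d)
        ((.inl u, d, .inr ()) ::ₘ {(.inr (), d', .inl w)} :
          Multiset ((V ⊕ Unit) × ℕ × (V ⊕ Unit))) z = kap A μ (d + d') (z u) (z w) :=
      fun z hz => zw_sub h (mus_side hz u)
    have hk : ∀ z : V → S, P z ≠ 0 → kap A μ (d + d') (z u) (z w) ≠ 0 := by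
      intro z h0 h1
      have h2 := hP.supp z (lt_of_le_of_ne (hP.nonneg z) h0.symm)
      rw [kapE_cons, h1, zero_mul, mul_zero] at h2
      exact lt_irrefl _ h2
    have hZ : ∀ z : V → S, P z ≠ 0 → zw A μ c (fun _ : Unit => sh (side u) d)
        ((.inl u, d, .inr ()) ::ₘ {(.inr (), d', .inl w)} :
          Multiset ((V ⊕ Unit) × ℕ × (V ⊕ Unit))) z ≠ 0 :=
      fun z h0 => by rw [hz z (hP.mus_ne h0)]; exact hk z h0
    refine ⟨extP A μ c (fun _ : Unit => sh (side u) d)
      ((.inl u, d, .inr ()) ::ₘ {(.inr (), d', .inl w)} :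
        Multiset ((V ⊕ Unit) × ℕ × (V ⊕ Unit))) P, ?_, fun r hr => ?_⟩
    · have h1 := LawF.ext (sN := fun _ : Unit => sh (side u) d)
        (E' := ((.inl u, d, .inr ()) ::ₘ {(.inr (), d', .inl w)} :
          Multiset ((V ⊕ Unit) × ℕ × (V ⊕ Unit)))) h
        (L := (u, d + d', w) ::ₘ L) (L₂ := L) (ℓ := fun z => kap A μ (d + d') (z u) (z w))
        (fun z => kapE_cons _ _ _ _ _) hP hZ ?_
      · rwa [add_comm, Multiset.cons_add, Multiset.singleton_add] at h1
      · refine Finset.sum_le_sum fun z _ => ?_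
        by_cases h0 : P z = 0
        · rw [h0, zero_mul, zero_mul]
        · rw [hz z (hP.mus_ne h0)]
    · rcases hr with hr | hr
      · obtain ⟨r₀, h0, rfl⟩ := hr
        exact MargT.ext_old h hZ (hm r₀ h0)
      · obtain ⟨U, E, h0, hu, hw, rfl⟩ := hr
        refine MargT.ext_new (E₁ := E) h (hm _ h0) (fun v hv => ?_) (fun p hp => ?_)
          (fun z y => ?_) (fun G _ => ?_)
        · rcases hv with hv | hv
          · obtain ⟨v', hv', hv''⟩ := hv
            rwa [← Sum.inl_injective hv'']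
          · exact absurd hv (by simp)
        · rcases Multiset.mem_cons.1 hp with rfl | hp
          · exact ⟨fun v hv => Or.inl ⟨u, hu, hv⟩, fun v hv => absurd hv (by simp)⟩
          · rw [Multiset.mem_singleton.1 hp]
            exact ⟨fun v hv => absurd hv (by simp), fun v hv => Or.inl ⟨w, hw, hv⟩⟩
        · rw [kapE_cons, kapE_cons, kapE_map, kapE_cons, ← Multiset.cons_zero, kapE_cons,
            kapE_zero, mul_one]
          simp only [Sum.elim_inl]
          ring
        · refine Finset.sum_congr rfl fun z _ => ?_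
          by_cases h1 : mus side μ c z = 0
          · rw [h1]; ring
          · rw [hz z h1, kapE_cons]; ring

end

end Vale.Agent.P050.SP
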