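import Vale.Agent.P050.R2.H545.HubE5

/-!
# P050: a plan for the incidence graph of the sets ab, abc, cd, ace, bce, ade
-/

namespace Vale.Agent.P050.Books

open Finset Vale.Agent.P050.Lev

/-- the sets; the letters a, b, c, d, e are 0, …, 4 -/
def g11s : Fin 6 → Finset (Fin 5) :=
  ![{0, 1}, {0, 1, 2}, {2, 3}, {0, 2, 4}, {1, 2, 4}, {0, 3, 4}]

/-- the incidence graph -/
def G11 : SimpleGraph (Fin 5 ⊕ Fin 6) where
  Adj
    | .inl i, .inr j => i ∈ g11s j
    | .inr j, .inl i => i ∈ g11s j
    | _, _ => False
  symm := ⟨fun u v h => by rcases u with u | u <;> rcases v with v | v <;> exact h⟩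
  loopless := ⟨fun u h => by rcases u with u | u <;> exact h⟩

instance : DecidableRel G11.Adj := fun u v => by
  rcases u with u | u <;> rcases v with v | v <;> simp only [G11] <;> infer_instance

/-- the earlier neighbours: b: a, c: a b, d: c, e: b c -/
def g11R : Fin 5 → Finset (Fin 5) := ![∅, {0}, {0, 1}, {2}, {1, 2}]

/-- the chordal graph on the letters -/
def G11K : SimpleGraph (Fin 5 ⊕ Fin 6) where
  Adj
    | .inl i, .inl j => i ∈ g11R j ∨ j ∈ g11R i
    | _, _ => False
  symm := ⟨fun u v h => by
    rcases u with u | u <;> rcases v with v | v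
    · exact h.symm
    all_goals exact h⟩
  loopless := ⟨fun u h => by
    rcases u with u | u
    · revert u; decide
    · exact h⟩

instance : DecidableRel G11K.Adj := fun u v => by
  rcases u with u | u <;> rcases v with v | v <;> simp only [G11K] <;> infer_instance

/-- the cliques: ab, abc, cd, ac, bce, a -/
def g11Q : Fin 5 ⊕ Fin 6 → Finset (Fin 5 ⊕ Fin 6) :=
  Sum.elim (fun _ => ∅) fun j =>
    ((![{0, 1}, {0, 1, 2}, {2, 3}, {0, 2}, {1, 2, 4}, {0}] : Fin 6 → Finset (Fin 5)) j).image
      Sum.inl

/-- the plan -/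
def g11P : Plan G11 (fun v => v.isRight) false where
  A := univ.image Sum.inl
  K := G11K
  r := Sum.elim (fun i => i) fun _ => 0
  R := Sum.elim (fun i => (g11R i).image Sum.inl) fun _ => ∅
  Q := g11Q
  T := fun _ => ∅
  c := fun _ => 1
  sA := by decide
  inj := by decide
  hR := by decide
  cR := by decide
  hQ := by
    intro z hz
    refine ⟨?_, ?_, ?_⟩
    · revert z; decide
    · revert z; decide
    · revert z; decide
  copy := by
    have h1 : ∀ a ∈ (univ.image Sum.inl : Finset (Fin 5 ⊕ Fin 6)),
        a ≠ .inl 3 → a ≠ .inl 4 → ¬ ∃ z, G11.Adj a z ∧ a ∉ g11Q z := by decide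
    intro a ha h
    by_cases h3 : a = .inl 3
    · subst h3
      exact ⟨.inl 0, by decide, by decide, by decide, by decide, by decide⟩
    · by_cases h4 : a = .inl 4
      · subst h4
        exact ⟨.inl 0, by decide, by decide, by decide, by decide, by decide⟩
      · exact absurd h (h1 a ha h3 h4)
  hT := by
    intro w hw hwA
    exact absurd hwA (by revert w; decide)
  top := by
    intro w hw hwA
    exact absurd hwA (by revert w; decide)

/-- the gain of a plan without vertices outside `A`, as an integer -/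
def Plan.gainI {V : Type} [Fintype V] [DecidableEq V] {H : SimpleGraph V} [DecidableRel H.Adj]
    {side : V → Bool} {σ : Bool} (P : Plan H side σ) (m : ℕ) : ℤ :=
  (∑ z with side z ≠ σ, (((P.Q z).card + 1 - m : ℕ) : ℤ)) +
    ∑ a ∈ P.A, ((univ.filter fun z => H.Adj a z ∧ a ∉ P.Q z ∧ m ≤ (P.Q z).card).card : ℤ) -
    ((P.A.filter fun a => m ≤ (P.R a).card + 1).card : ℤ)

theorem Plan.gain_eqI {V : Type} [Fintype V] [DecidableEq V] {H : SimpleGraph V}
    [DecidableRel H.Adj] {side : V → Bool} {σ : Bool} (P : Plan H side σ)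
    (hA : ∀ v, side v = σ → v ∈ P.A) (m : ℕ) : P.gain m = (P.gainI m : ℝ) := by
  unfold Plan.gain Plan.gainI
  have h1 : ∀ w, ¬ (side w = σ ∧ w ∉ P.A) := fun w h => h.2 (hA w h.1)
  refine (add_eq_left.2 (Finset.sum_eq_zero fun w hw => ?_)).trans ?_
  · have h2 : w ∈ {w | side w = σ ∧ w ∉ P.A} := by
      convert! (Finset.mem_coe.2 hw) using 1
      ext v
      simp
    exact (h1 w h2).elim
  simp only [Int.cast_add, Int.cast_sub, Int.cast_sum, Int.cast_natCast]
  congr!

theorem g11P_gain (m : ℕ) (hm : 2 ≤ m) : 0 ≤ g11P.gain m := by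
  rw [Plan.gain_eqI g11P (by decide)]
  have h1 : 0 ≤ g11P.gainI m := by
    by_cases h6 : m < 4
    · interval_cases m
      · decide
      · decide
    · have hR : (g11P.A.filter fun a => m ≤ (g11P.R a).card + 1) = ∅ := by
        refine Finset.filter_eq_empty_iff.2 fun a ha h1 => ?_
        have h2 : ∀ a : Fin 5 ⊕ Fin 6, (g11P.R a).card ≤ 2 := by decide
        have := h2 a
        omega
      unfold Plan.gainI
      rw [hR]
      simp only [Nat.cast_zero, sub_zero, Finset.card_empty]
      positivity
  exact_mod_cast h1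

theorem G11_side : ∀ u v, G11.Adj u v → u.isRight ≠ v.isRight := by decide

theorem G11_iso : ∀ v, ∃ u, G11.Adj v u := by decide

/-- the incidence graph of ab, abc, cd, ace, bce, ade has the Sidorenko property -/
theorem G11_gsid : GSid G11 (fun v => v.isRight) :=
  gsid_of_plans G11_side G11_iso (ι := Unit) (fun _ => g11P) fun m hm => by
    simpa using g11P_gain m hm

end Vale.Agent.P050.Books
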