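import Vale.Agent.P050.R2.H545.HubE5

/-!
# P050: a plan for the incidence graph of the sets 1234b, 12a, 123b, 14a, 24bc, 34c
-/

namespace Vale.Agent.P050.Books

open Finset Vale.Agent.P050.Lev

/-- the sets; the letters 1, 2, 3, 4, b, a, c are 0, …, 6 -/
def g13s : Fin 6 → Finset (Fin 7) :=
  ![{0, 1, 2, 3, 4}, {0, 1, 5}, {0, 1, 2, 4}, {0, 3, 5}, {1, 3, 4, 6}, {2, 3, 6}]

/-- the incidence graph -/
def G13 : SimpleGraph (Fin 7 ⊕ Fin 6) where
  Adj
    | .inl i, .inr j => i ∈ g13s j
    | .inr j, .inl i => i ∈ g13s j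
    | _, _ => False
  symm := ⟨fun u v h => by rcases u with u | u <;> rcases v with v | v <;> exact h⟩
  loopless := ⟨fun u h => by rcases u with u | u <;> exact h⟩

instance : DecidableRel G13.Adj := fun u v => by
  rcases u with u | u <;> rcases v with v | v <;> simp only [G13] <;> infer_instance

/-- the complete graph on 1, 2, 3, 4, b -/
def G13K : SimpleGraph (Fin 7 ⊕ Fin 6) where
  Adj
    | .inl i, .inl j => i ≠ j ∧ i < 5 ∧ j < 5
    | _, _ => False
  symm := ⟨fun u v h => by
    rcases u with u | u <;> rcases v with v | v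
    · exact ⟨h.1.symm, h.2.2, h.2.1⟩
    all_goals exact h⟩
  loopless := ⟨fun u h => by
    rcases u with u | u
    · exact h.1 rfl
    · exact h⟩

instance : DecidableRel G13K.Adj := fun u v => by
  rcases u with u | u <;> rcases v with v | v <;> simp only [G13K] <;> infer_instance

/-- the number of a vertex -/
def g13r : Fin 7 ⊕ Fin 6 → ℕ := Sum.elim (fun i => i) fun _ => 0

/-- the earlier vertices -/
def g13R : Fin 7 ⊕ Fin 6 → Finset (Fin 7 ⊕ Fin 6) :=
  Sum.elim (fun i => (univ.filter fun j : Fin 7 => j < i ∧ i < 5).image Sum.inl) fun _ => ∅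

/-- the cliques of the sets -/
def g13Q : Fin 7 ⊕ Fin 6 → Finset (Fin 7 ⊕ Fin 6) :=
  Sum.elim (fun _ => ∅) fun j => ((g13s j).filter fun i => i < 5).image Sum.inl

/-- the cliques of the letters a, c -/
def g13T : Fin 7 ⊕ Fin 6 → Finset (Fin 7 ⊕ Fin 6) :=
  Sum.elim (fun i => if i = 5 then {.inl 0, .inl 1, .inl 3} else
    {.inl 1, .inl 2, .inl 3, .inl 4}) fun _ => ∅

/-- the plan -/
def g13P : Plan G13 (fun v => v.isRight) false where
  A := (univ.filter fun i : Fin 7 => i < 5).image Sum.inl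
  K := G13K
  r := g13r
  R := g13R
  Q := g13Q
  T := g13T
  c := fun _ => 1
  sA := by decide
  inj := by decide
  hR := by decide
  cR := by decide
  hQ := by
    intro z hz
    refine ⟨?_, ?_, ?_⟩
    · revert z; decide
    · revert z; decide
    · revert z; decide
  copy := by
    intro a ha h
    exact absurd h (by revert a; decide)
  hT := by decide
  top := by
    intro w hw hwA
    refine ⟨le_rfl, ?_⟩
    have h1 : ∃ a, ∀ z, G13.Adj w z → a ∈ g13Q z := by
      revert w; decide
    obtain ⟨a, ha⟩ := h1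
    have : Nonempty {a // ∀ z, G13.Adj w z → a ∈ g13Q z} := ⟨⟨a, ha⟩⟩
    exact Nat.card_pos

/-- the gain of a plan with all `c w = 1`, as an integer -/
def Plan.gainZ {V : Type} [Fintype V] [DecidableEq V] {H : SimpleGraph V} [DecidableRel H.Adj]
    {side : V → Bool} {σ : Bool} (P : Plan H side σ) (m : ℕ) : ℤ :=
  (∑ z with side z ≠ σ, (((P.Q z).card + 1 - m : ℕ) : ℤ)) +
    ∑ a ∈ P.A, ((univ.filter fun z => H.Adj a z ∧ a ∉ P.Q z ∧ m ≤ (P.Q z).card).card : ℤ) -
    ((P.A.filter fun a => m ≤ (P.R a).card + 1).card : ℤ) +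
    ∑ w with side w = σ ∧ w ∉ P.A,
      ((∑ z with H.Adj w z, ((min 1 ((P.Q z).card + 1 - m) : ℕ) : ℤ)) -
        ((min 1 ((P.T w).card + 1 - m) : ℕ) : ℤ))

theorem Plan.gain_eqZ {V : Type} [Fintype V] [DecidableEq V] {H : SimpleGraph V}
    [DecidableRel H.Adj] {side : V → Bool} {σ : Bool} (P : Plan H side σ)
    (hc : ∀ w, P.c w = 1) (m : ℕ) : P.gain m = (P.gainZ m : ℝ) := by
  unfold Plan.gain Plan.gainZ
  simp only [hc, Nat.cast_one, div_one, Int.cast_add, Int.cast_sub, Int.cast_sum,
    Int.cast_natCast]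
  congr!

theorem g13P_gain (m : ℕ) (hm : 2 ≤ m) : 0 ≤ g13P.gain m := by
  rw [Plan.gain_eqZ g13P (fun _ => rfl)]
  have h1 : 0 ≤ g13P.gainZ m := by
    by_cases h6 : m < 6
    · interval_cases m
      · decide
      · decide
      · decide
      · decide
    · have hR : (g13P.A.filter fun a => m ≤ (g13P.R a).card + 1) = ∅ := by
        refine Finset.filter_eq_empty_iff.2 fun a ha h1 => ?_
        have h2 : ∀ a : Fin 7 ⊕ Fin 6, (g13P.R a).card ≤ 4 := by decide
        have := h2 a
        omega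
      have hT : ∀ w : Fin 7 ⊕ Fin 6, (g13P.T w).card + 1 - m = 0 := by
        intro w
        have h2 : ∀ a : Fin 7 ⊕ Fin 6, (g13P.T a).card ≤ 4 := by decide
        have := h2 w
        omega
      unfold Plan.gainZ
      rw [hR]
      simp only [hT, Nat.min_zero, Nat.cast_zero, sub_zero, Finset.card_empty]
      positivity
  exact_mod_cast h1

/-- the incidence graph of 1234b, 12a, 123b, 14a, 24bc, 34c has the Sidorenko property -/
theorem G13_gsid : GSid G13 (fun v => v.isRight) :=
  gsid_of_plans (by decide) (by decide) (ι := Unit) (fun _ => g13P) fun m hm => by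
    simpa using g13P_gain m hm

end Vale.Agent.P050.Books
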