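import Vale.Agent.P050.R4.H987.StarDef

/-!
# P050, series-parallel graphs: a path across the bend of a polygon
-/

namespace Vale.Agent.P050.SP

open Finset Matrix Vale.Agent.P050.Ears

variable {S : Type*} [Fintype S] [DecidableEq S]
variable {A : Matrix S S ℝ} {μ : S → ℝ} {c : S → Bool} (h : Rev A μ c)

omit h in
/-- the law of the two points of the bridges given the starting point -/
theorem lam_walk (b a l1 d : ℕ) (u x y : S) :
    lam A b a (fun w => (A ^ l1) u w) (fun v => (A ^ d) u v) x y =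
      (A ^ l1) u x * (A ^ d) u y * RR A b a (l1 + b) u x y := by
  unfold lam glue RR
  rw [Finset.mul_sum]
  refine Finset.sum_congr rfl fun z _ => ?_
  rw [pow_add A l1 b, Matrix.mul_apply]
  ring

omit h in
/-- the density when the second point moves away from the common end -/
theorem RR_step (α β s k : ℕ) (u x y : S) :
    RR A α (β + s) k u x y = ∑ r, (A ^ s) y r * RR A α β k u x r := by
  unfold RR
  simp only [Finset.mul_sum]
  rw [Finset.sum_comm]
  refine Finset.sum_congr rfl fun z _ => ?_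
  rw [add_comm β s, pow_add, Matrix.mul_apply, Finset.mul_sum, Finset.sum_div]
  exact Finset.sum_congr rfl fun r _ => by ring

include h

theorem RR_nonneg (α β k : ℕ) (u x y : S) : 0 ≤ RR A α β k u x y :=
  Finset.sum_nonneg fun _ _ => div_nonneg (mul_nonneg (h.pow_nonneg _ _ _) (h.pow_nonneg _ _ _))
    (h.pow_nonneg _ _ _)

theorem lam_walk_sum {b a l1 d : ℕ} (hT : l1 + b = d + a) (u : S) :
    ∑ x, ∑ y, (A ^ l1) u x * (A ^ d) u y * RR A b a (l1 + b) u x y = 1 := by
  have hc := cmp_walk (A := A) (μ := μ) (c := c) h hT u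
  have h1 : ∀ x, ∑ y, (A ^ l1) u x * (A ^ d) u y * RR A b a (l1 + b) u x y = (A ^ l1) u x := by
    intro x
    have h2 := lam_left h hc x
    simp only [lam_walk] at h2
    exact h2
  simp only [h1, h.pow_row]

/-- the information given the starting point is not negative -/
theorem info_nonneg {b a l1 d : ℕ} (hT : l1 + b = d + a) (u : S) :
    0 ≤ ∑ x, ∑ y, (A ^ l1) u x * (A ^ d) u y *
      (RR A b a (l1 + b) u x y * Real.log (RR A b a (l1 + b) u x y)) := by
  have g := gibbs (univ : Finset (S × S))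
    (fun p => (A ^ l1) u p.1 * (A ^ d) u p.2 * RR A b a (l1 + b) u p.1 p.2)
    (fun p => (A ^ l1) u p.1 * (A ^ d) u p.2)
    (fun p _ => mul_nonneg (mul_nonneg (h.pow_nonneg _ _ _) (h.pow_nonneg _ _ _))
      (RR_nonneg h _ _ _ _ _ _))
    (fun p _ => mul_nonneg (h.pow_nonneg _ _ _) (h.pow_nonneg _ _ _))
    (fun p _ hp => by
      refine lt_of_le_of_ne (mul_nonneg (h.pow_nonneg _ _ _) (h.pow_nonneg _ _ _)) fun h0 => ?_
      rw [← h0, zero_mul] at hp
      exact lt_irrefl _ hp)
  simp only [Fintype.sum_prod_type] at g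
  rw [lam_walk_sum h hT u] at g
  have e1 : ∑ x, ∑ y, (A ^ l1) u x * (A ^ d) u y = 1 := by
    simp only [← Finset.mul_sum, h.pow_row, mul_one]
  rw [e1] at g
  have e2 : ∑ x, ∑ y, (A ^ l1) u x * (A ^ d) u y * RR A b a (l1 + b) u x y *
      (Real.log ((A ^ l1) u x * (A ^ d) u y) -
        Real.log ((A ^ l1) u x * (A ^ d) u y * RR A b a (l1 + b) u x y)) =
      -∑ x, ∑ y, (A ^ l1) u x * (A ^ d) u y *
      (RR A b a (l1 + b) u x y * Real.log (RR A b a (l1 + b) u x y)) := by
    rw [← Finset.sum_neg_distrib]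
    refine Finset.sum_congr rfl fun x _ => ?_
    rw [← Finset.sum_neg_distrib]
    refine Finset.sum_congr rfl fun y _ => ?_
    by_cases h1 : (A ^ l1) u x * (A ^ d) u y = 0
    · rw [h1]; ring
    by_cases h2 : RR A b a (l1 + b) u x y = 0
    · rw [h2]; ring
    rw [Real.log_mul h1 h2]; ring
  rw [e2] at g
  have e3 : (1 : ℝ) * (Real.log 1 - Real.log 1) = 0 := by ring
  rw [e3] at g
  linarith

/-- the lower bound `QB` for the two points of the bridges given the starting point -/
theorem QB_walk {b a l1 d : ℕ} (hT : l1 + b = d + a) (u : S) :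
    QB A μ b a (fun w => (A ^ l1) u w) (fun v => (A ^ d) u v) =
      (∑ x, ∑ y, (A ^ l1) u x * (A ^ d) u y *
        (RR A b a (l1 + b) u x y * Real.log (RR A b a (l1 + b) u x y))) +
      Dd A μ (l1 + b) u := by
  have hc := cmp_walk (A := A) (μ := μ) (c := c) h hT u
  have hl := lam_left h hc
  have hr := lam_right h hc
  simp only [lam_walk] at hl hr
  have t1 : ∀ x y, (A ^ l1) u x * (A ^ d) u y * RR A b a (l1 + b) u x y *
      Real.log ((A ^ l1) u x * (A ^ d) u y * RR A b a (l1 + b) u x y) =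
      (A ^ l1) u x * (A ^ d) u y * RR A b a (l1 + b) u x y * Real.log ((A ^ l1) u x) +
      (A ^ l1) u x * (A ^ d) u y * RR A b a (l1 + b) u x y * Real.log ((A ^ d) u y) +
      (A ^ l1) u x * (A ^ d) u y *
        (RR A b a (l1 + b) u x y * Real.log (RR A b a (l1 + b) u x y)) := by
    intro x y
    by_cases h1 : (A ^ l1) u x = 0
    · rw [h1]; ring
    by_cases h2 : (A ^ d) u y = 0
    · rw [h2]; ring
    by_cases h3 : RR A b a (l1 + b) u x y = 0
    · rw [h3]; ring
    rw [Real.log_mul (mul_ne_zero h1 h2) h3, Real.log_mul h1 h2]; ring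
  have t2 : ∑ x, ∑ y, (A ^ l1) u x * (A ^ d) u y * RR A b a (l1 + b) u x y *
      Real.log ((A ^ l1) u x) = E1 (fun w => (A ^ l1) u w) := by
    unfold E1
    exact Finset.sum_congr rfl fun x _ => by rw [← Finset.sum_mul, hl]
  have t3 : ∑ x, ∑ y, (A ^ l1) u x * (A ^ d) u y * RR A b a (l1 + b) u x y *
      Real.log ((A ^ d) u y) = E1 (fun w => (A ^ d) u w) := by
    unfold E1
    rw [Finset.sum_comm]
    exact Finset.sum_congr rfl fun y _ => by rw [← Finset.sum_mul, hr]
  have hsg : ∀ z, ∑ x, (A ^ l1) u x * (A ^ b) x z = (A ^ (l1 + b)) u z := by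
    intro z
    rw [pow_add, Matrix.mul_apply]
  unfold QB EL
  simp only [lam_walk, t1, Finset.sum_add_distrib, t2, t3, hsg]
  unfold Dd E1
  have t4 : ∑ z, (A ^ (l1 + b)) u z * (Real.log ((A ^ (l1 + b)) u z) - Real.log (μ z)) =
      ∑ z, (A ^ (l1 + b)) u z * Real.log ((A ^ (l1 + b)) u z) -
        ∑ z, (A ^ (l1 + b)) u z * Real.log (μ z) := by
    rw [← Finset.sum_sub_distrib]
    exact Finset.sum_congr rfl fun z _ => by ring
  rw [t4]
  ring

/-- the path of length `b + a` -/
theorem QK_kap {b a : ℕ} {rx ry : S → ℝ} (hc : Cmp A c b a rx ry) :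
    QB A μ b a rx ry ≤ EL (lam A b a rx ry) (kap A μ (b + a)) := by
  have C := comp h.pos (r := fun x z => rx x * (A ^ b) x z) (q := fun z y => ry y * (A ^ a) y z)
    (F := kap A μ b) (G := kap A μ a) (om := fun z => ∑ x, rx x * (A ^ b) x z)
    (fun x w => mul_nonneg (hc.nx x) (h.pow_nonneg b x w))
    (fun w y => mul_nonneg (hc.ny y) (h.pow_nonneg a y w)) (fun w => rfl)
    (fun w => (hc.eq w).symm) (h.kap_nonneg b) (h.kap_nonneg a)
    (fun x w hp => by
      unfold kap
      refine div_pos (lt_of_le_of_ne (h.pow_nonneg b x w) fun h0 => ?_) (h.pos w)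
      rw [← h0, mul_zero] at hp
      exact lt_irrefl _ hp)
    (fun w y hp => by
      rw [h.kap_symm]
      unfold kap
      refine div_pos (lt_of_le_of_ne (h.pow_nonneg a y w) fun h0 => ?_) (h.pos w)
      rw [← h0, mul_zero] at hp
      exact lt_irrefl _ hp)
  have hs : serK μ (kap A μ b) (kap A μ a) = kap A μ (b + a) := by
    funext x y
    unfold serK
    rw [h.kap_add]
    exact Finset.sum_congr rfl fun w _ => by ring
  rw [hs] at C
  have g1 : ∀ {k : ℕ} {r : S → ℝ}, EL (fun x z => r x * (A ^ k) x z) (kap A μ k) -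
      EL (fun x z => r x * (A ^ k) x z) (fun x z => r x * (A ^ k) x z) =
      -(∑ z, (∑ x, r x * (A ^ k) x z) * Real.log (μ z)) - E1 r := by
    intro k r
    unfold EL E1
    rw [← Finset.sum_sub_distrib]
    have t1 : ∀ x, ∑ z, r x * (A ^ k) x z * Real.log (kap A μ k x z) -
        ∑ z, r x * (A ^ k) x z * Real.log (r x * (A ^ k) x z) =
        -(∑ z, r x * (A ^ k) x z * Real.log (μ z)) - r x * Real.log (r x) := by
      intro x
      rw [← Finset.sum_sub_distrib]
      have t2 : ∀ z, r x * (A ^ k) x z * Real.log (kap A μ k x z) -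
          r x * (A ^ k) x z * Real.log (r x * (A ^ k) x z) =
          -(r x * (A ^ k) x z * Real.log (μ z)) - r x * Real.log (r x) * (A ^ k) x z := by
        intro z
        by_cases h1 : r x = 0
        · rw [h1]; ring
        by_cases h2 : (A ^ k) x z = 0
        · rw [h2]; ring
        unfold kap
        rw [Real.log_div h2 (h.pos z).ne', Real.log_mul h1 h2]; ring
      simp only [t2, Finset.sum_sub_distrib, Finset.sum_neg_distrib, ← Finset.mul_sum, h.pow_row,
        mul_one]
    simp only [t1, Finset.sum_sub_distrib, Finset.sum_neg_distrib]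
    congr 2
    rw [Finset.sum_comm]
    exact Finset.sum_congr rfl fun z _ => by rw [Finset.sum_mul]
  have g2 := g1 (k := b) (r := rx)
  have g3 := g1 (k := a) (r := ry)
  have g4 : EL (fun z y => ry y * (A ^ a) y z) (kap A μ a) =
      EL (fun y z => ry y * (A ^ a) y z) (kap A μ a) := by
    rw [← EL_swap (fun y z => ry y * (A ^ a) y z) (kap A μ a)]
    congr 1
    funext z y
    exact h.kap_symm a z y
  have g5 : EL (fun z y => ry y * (A ^ a) y z) (fun z y => ry y * (A ^ a) y z) =
      EL (fun y z => ry y * (A ^ a) y z) (fun y z => ry y * (A ^ a) y z) :=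
    EL_swap (fun y z => ry y * (A ^ a) y z) (fun y z => ry y * (A ^ a) y z)
  rw [g4, g5, g2, g3] at C
  simp only [← hc.eq] at C
  unfold QB
  change _ ≤ EL (glue _ _ _) _
  have e1 : EL (lam A b a rx ry) (lam A b a rx ry) = EL (glue (fun x z => rx x * (A ^ b) x z)
    (fun z y => ry y * (A ^ a) y z) (fun z => ∑ x, rx x * (A ^ b) x z)) (glue (fun x z => rx x *
      (A ^ b) x z) (fun z y => ry y * (A ^ a) y z) (fun z => ∑ x, rx x * (A ^ b) x z)) := rfl
  rw [e1]
  refine le_trans (le_of_eq ?_) C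
  ring

end Vale.Agent.P050.SP
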