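import Vale.Agent.P050.R4.H987.Star

/-!
# P050, series-parallel graphs: a path across the bend of a polygon, the extension step
-/

namespace Vale.Agent.P050.SP

open Finset Matrix Vale.Agent.P050.Ears

variable {S : Type*} [Fintype S] [DecidableEq S]
variable {A : Matrix S S ℝ} {μ : S → ℝ} {c : S → Bool} (h : Rev A μ c)

include h

/-- a path with `s` additional steps at its end -/
theorem kap_step (k s : ℕ) (x y : S) :
    kap A μ (k + s) x y = ∑ r, (A ^ s) y r * kap A μ k x r := by
  rw [h.kap_add]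
  refine Finset.sum_congr rfl fun r _ => ?_
  rw [h.kap_symm s r y, h.pow_eq s y r]
  ring

/-- Two bridges from `z` to a common end; the second point `y` is moved by `s` steps towards this
end. -/
theorem ext_pt {b a s l1 e k : ℕ} (hk : k = b + (a + s)) (z : S) :
    EL (lam A l1 e (fun w => (A ^ b) z w) (fun v => (A ^ (a + s)) z v)) (kap A μ k) -
      (∑ x, ∑ y, (A ^ b) z x * (A ^ (a + s)) z y *
        (RR A l1 e (b + l1) z x y * Real.log (RR A l1 e (b + l1) z x y))) +
      (∑ x, ∑ y, (A ^ b) z x * (A ^ a) z y *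
        (RR A l1 (e + s) (b + l1) z x y * Real.log (RR A l1 (e + s) (b + l1) z x y))) ≤
      EL (lam A l1 (e + s) (fun w => (A ^ b) z w) (fun v => (A ^ a) z v)) (kap A μ (k + s)) := by
  have hR := RR_nonneg h (A := A)
  -- for each pair of points
  have key : ∀ x y, (A ^ b) z x * (A ^ a) z y *
      (∑ r, (A ^ s) y r * (RR A l1 e (b + l1) z x r *
        (Real.log (kap A μ k x r) - Real.log (RR A l1 e (b + l1) z x r)))) +
      (A ^ b) z x * (A ^ a) z y * (RR A l1 (e + s) (b + l1) z x y *
        Real.log (RR A l1 (e + s) (b + l1) z x y)) ≤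
      (A ^ b) z x * (A ^ a) z y * (RR A l1 (e + s) (b + l1) z x y *
        Real.log (kap A μ (k + s) x y)) := by
    intro x y
    rcases (h.pow_nonneg b z x).eq_or_lt with h1 | h1
    · rw [← h1]; simp
    rcases (h.pow_nonneg a z y).eq_or_lt with h2 | h2
    · rw [← h2]; simp
    have hkp : ∀ r, 0 < (A ^ s) y r → 0 < kap A μ k x r := by
      intro r h3
      refine div_pos ?_ (h.pos r)
      rw [hk, pow_add, Matrix.mul_apply]
      refine Finset.sum_pos' (fun w _ => mul_nonneg (h.pow_nonneg _ _ _) (h.pow_nonneg _ _ _))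
        ⟨z, mem_univ z, mul_pos ?_ ?_⟩
      · have h4 := h.pow_rev b x z
        have h5 : 0 < μ x * (A ^ b) x z := by rw [h4]; exact mul_pos (h.pos z) h1
        exact (mul_pos_iff_of_pos_left (h.pos x)).1 h5
      · rw [pow_add, Matrix.mul_apply]
        exact Finset.sum_pos'
          (fun w _ => mul_nonneg (h.pow_nonneg _ _ _) (h.pow_nonneg _ _ _))
          ⟨y, mem_univ y, mul_pos h2 h3⟩
    have g := gibbs (univ : Finset S) (fun r => (A ^ s) y r * RR A l1 e (b + l1) z x r)
      (fun r => (A ^ s) y r * kap A μ k x r)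
      (fun r _ => mul_nonneg (h.pow_nonneg _ _ _) (hR _ _ _ _ _ _))
      (fun r _ => mul_nonneg (h.pow_nonneg _ _ _) (h.kap_nonneg _ _ _))
      (fun r _ hp => by
        have h3 : 0 < (A ^ s) y r := by
          refine lt_of_le_of_ne (h.pow_nonneg _ _ _) fun h0 => ?_
          rw [← h0, zero_mul] at hp
          exact lt_irrefl _ hp
        exact mul_pos h3 (hkp r h3))
    rw [← RR_step, ← kap_step h] at g
    have e1 : ∑ r, (A ^ s) y r * RR A l1 e (b + l1) z x r *
        (Real.log ((A ^ s) y r * kap A μ k x r) -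
          Real.log ((A ^ s) y r * RR A l1 e (b + l1) z x r)) =
        ∑ r, (A ^ s) y r * (RR A l1 e (b + l1) z x r *
        (Real.log (kap A μ k x r) - Real.log (RR A l1 e (b + l1) z x r))) := by
      refine Finset.sum_congr rfl fun r _ => ?_
      rcases (h.pow_nonneg s y r).eq_or_lt with h3 | h3
      · rw [← h3]; simp
      by_cases h4 : RR A l1 e (b + l1) z x r = 0
      · rw [h4]; simp
      rw [Real.log_mul h3.ne' (hkp r h3).ne', Real.log_mul h3.ne' h4]
      ring
    rw [e1] at g
    have h6 := mul_le_mul_of_nonneg_left g (mul_pos h1 h2).le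
    rw [mul_sub, mul_sub] at h6
    linarith
  have hs := Finset.sum_le_sum fun x (_ : x ∈ univ) =>
    Finset.sum_le_sum fun y (_ : y ∈ univ) => key x y
  simp only [Finset.sum_add_distrib] at hs
  have e2 : ∀ f : S → S → ℝ, ∑ x, ∑ y, (A ^ b) z x * (A ^ a) z y * (∑ r, (A ^ s) y r * f x r) =
      ∑ x, ∑ r, (A ^ b) z x * (A ^ (a + s)) z r * f x r := by
    intro f
    refine Finset.sum_congr rfl fun x _ => ?_
    simp only [Finset.mul_sum]
    rw [Finset.sum_comm]
    refine Finset.sum_congr rfl fun r _ => ?_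
    rw [pow_add, Matrix.mul_apply, Finset.mul_sum, Finset.sum_mul]
    exact Finset.sum_congr rfl fun y _ => by ring
  rw [e2 (fun x r => RR A l1 e (b + l1) z x r *
    (Real.log (kap A μ k x r) - Real.log (RR A l1 e (b + l1) z x r)))] at hs
  unfold EL
  simp only [lam_walk]
  have e3 : ∑ x, ∑ r, (A ^ b) z x * (A ^ (a + s)) z r * (RR A l1 e (b + l1) z x r *
      (Real.log (kap A μ k x r) - Real.log (RR A l1 e (b + l1) z x r))) =
      ∑ x, ∑ r, (A ^ b) z x * (A ^ (a + s)) z r * RR A l1 e (b + l1) z x r *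
        Real.log (kap A μ k x r) -
      ∑ x, ∑ r, (A ^ b) z x * (A ^ (a + s)) z r * (RR A l1 e (b + l1) z x r *
        Real.log (RR A l1 e (b + l1) z x r)) := by
    rw [← Finset.sum_sub_distrib]
    refine Finset.sum_congr rfl fun x _ => ?_
    rw [← Finset.sum_sub_distrib]
    exact Finset.sum_congr rfl fun r _ => by ring
  rw [e3] at hs
  simp only [mul_assoc] at hs ⊢
  linarith

end Vale.Agent.P050.SP
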