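import Vale.Agent.P050.R4.H859.Ser2

/-!
# P050, series-parallel graphs: the information between the two bridges
-/

namespace Vale.Agent.P050.SP

open Finset Matrix Vale.Agent.P050.Ears

variable {S : Type*} [Fintype S] [DecidableEq S]

/-- Two bridges of length `h` from `u` to a common end; the density of the point of the first
bridge at distance `α` and the point of the second bridge at distance `β` from this end, with
respect to the product of their laws given `u`. -/
noncomputable def RR (A : Matrix S S ℝ) (α β h : ℕ) (u x y : S) : ℝ :=
  ∑ z, (A ^ α) x z * (A ^ β) y z / (A ^ h) u z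

/-- the mutual information of these two points given `u`; `i`, `j` are their distances from `u`,
so `i + α = j + β = h` -/
noncomputable def Psi (A : Matrix S S ℝ) (μ : S → ℝ) (c : S → Bool) (i α j β : ℕ) (t : Bool) : ℝ :=
  ∑ u, (if c u = t then μ u else 0) * ∑ x, ∑ y, (A ^ i) u x * (A ^ j) u y *
    (RR A α β (i + α) u x y * Real.log (RR A α β (i + α) u x y))

end Vale.Agent.P050.SP
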